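import Vale.Agent.P214.CAPF.Event

/-!
# P214, block CAPF (8): the geometric content of a gap event, without any jump clause

`event_data`: for any grid index `i ≤ I`, any level `j`, any subset `S` of the representatives
which is separated at level `j + 1` and covers at level `j`, and any time `u` of `[i η, I η]` at
which the gap term is `> θ A(u)`:

* window size `w² ≥ min (R₁², rad2 (j+1) i / 9)`,
* heights `H_S(v) ≤ K₃ (κ + 2 v)^{e j} A(v)` for all later `v`,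
* gap energy `θ A(u) < (1 + 2 winC) t^{2-m} ∫_{gap, |x| < t} tilt`, `t = s e^u`.
-/

open Set Filter Topology MeasureTheory Metric
open scoped RealInnerProductSpace

set_option linter.all false

namespace Vale.Agent.P214.CAPF

open Vale.Agent.P214.FV Vale.Agent.P214.ODE Vale.Agent.P214.NGP

variable {E : Type*} [NormedAddCommGroup E] [InnerProductSpace ℝ E] [FiniteDimensional ℝ E]
  [MeasurableSpace E] [BorelSpace E]

variable {T : Submodule ℝ E} {m : ℕ} {G : Set E} {ν : Measure E} {P : E → E →L[ℝ] E}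
  {z : E} {k k' K : ℝ → ℝ} {h : ℝ}

/-- **The geometric content of a gap event.** -/
theorem event_data (hC : CylStat m T G h ν P) (hk : Kern k k' K) (hK1 : ∀ s, 0 ≤ s → K s ≤ 1)
    {cQ : ℝ} {I : ℕ} {η κ M C₁ ε B₀ C₈ s R' R₁ δ θ : ℝ} {S₀ : Finset E}
    {H₀ H₀' : ℝ → ℝ} {H₁ : Finset E → ℝ → ℝ} {e : ℕ → ℕ}
    (hs : 0 < s) (hη : 0 ≤ η) (hR : s * Real.exp (I * η) < R') (hG : BallIn T G z R')
    (hR₁ : 0 < R₁) (hT : ∀ c ∈ S₀, c ∈ Tᗮ)
    (hM : 0 ≤ M) (hC₁ : 0 ≤ C₁) (hε0 : 0 ≤ ε) (hε1 : ε ≤ 1) (hB0 : 0 ≤ B₀) (hC₈ : 0 ≤ C₈)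
    (hκ : 1 ≤ κ)
    (hD : NG.NGData I η κ M C₁ ε B₀ C₈ (aU m T z K ν cQ s) (gU m T z K P ν s) (bU m T z k P ν s)
      (g₁U m T z k K P ν s) S₀ H₀ H₀'
      (fun S => HU m T z k (capF T S (wR S R₁)) P ν s δ) H₁
      (fun S => gSU m T z K (capF T S (wR S R₁)) P ν s))
    {i j : ℕ} (hej : 1 ≤ e j) (hi : i ≤ I) {S : Finset E} (hS : S ⊆ S₀) (hSne : S.Nonempty)
    (hsep : NG.Sep S (NG.rad2 e κ η (aU m T z K ν cQ s) (gU m T z K P ν s) (j + 1) i))
    (hcov : NG.Cov S S₀ (NG.rad2 e κ η (aU m T z K ν cQ s) (gU m T z K P ν s) j i))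
    {u : ℝ} (hu : u ∈ Icc (i * η : ℝ) (I * η))
    (hθ : θ * NG.Am (aU m T z K ν cQ s) (gU m T z K P ν s) u
      < gU m T z K P ν s u - gSU m T z K (capF T S (wR S R₁)) P ν s u) :
    min (R₁ ^ 2) (NG.rad2 e κ η (aU m T z K ν cQ s) (gU m T z K P ν s) (j + 1) i / 9)
        ≤ wR S R₁ ^ 2 ∧
      (∀ v ∈ Icc (i * η : ℝ) (I * η), HU m T z k (capF T S (wR S R₁)) P ν s δ v
        ≤ NG.K3 M C₁ B₀ C₈ * (κ + 2 * v) ^ e j
          * NG.Am (aU m T z K ν cQ s) (gU m T z K P ν s) v) ∧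
      θ * NG.Am (aU m T z K ν cQ s) (gU m T z K P ν s) u
          < (1 + 2 * TH.winC) * ((s * Real.exp u) ^ (2 - (m : ℤ)) *
            ∫ y in gapSet T z S (wR S R₁) (s * Real.exp u), ODE.tilt T P y ∂ν) := by
  refine ⟨?_, ?_, ?_⟩
  · exact wR_sq_ge hR₁ (NG.rad2_nonneg hD.epath hη hκ e (j + 1) i) hsep
  · intro v hv
    exact height_after hD hη hM hC₁ hε0 hε1 hB0 hC₈ hκ hej hi hS hSne hcov hv
  · have ht : s * Real.exp u ≤ R' := by
      refine le_trans ?_ hR.le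
      have := hu.2
      gcongr
    have h1 := gap (z := z) (R := wR S R₁) hC hk hK1 (by positivity : 0 < s * Real.exp u)
      (fun x hx hx2 => hG x hx (hx2.trans ht)) hSne (wR_pos S hR₁) (far_wR S)
      fun c hc => hT c (hS hc)
    exact lt_of_lt_of_le hθ h1

end Vale.Agent.P214.CAPF
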