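import Vale.Agent.P214.CAPF.Mout

/-!
# P214, block CAPF (7): the mass outside the windows at an event of the path lemma
-/

open Set Filter Topology MeasureTheory Metric
open scoped RealInnerProductSpace

set_option linter.all false

namespace Vale.Agent.P214.CAPF

open Vale.Agent.P214.FV Vale.Agent.P214.ODE Vale.Agent.P214.NGP Vale.Agent.P214.QP

section abs

variable {X : Type*} [MetricSpace X] {I : ℕ} {h κ M C₁ ε B₀ C₈ : ℝ} {a g b g₁ : ℝ → ℝ}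
  {S₀ : Finset X} {H₀ H₀' : ℝ → ℝ} {H H₁ gS : Finset X → ℝ → ℝ}

/-- the squared radius `rad2 j i` is at most `e^{C₂B₀} (κ+2u)^{e j} A(u)` for `u ≥ i h` -/
theorem rad2_le (hD : NG.NGData I h κ M C₁ ε B₀ C₈ a g b g₁ S₀ H₀ H₀' H H₁ gS)
    (h0 : 0 ≤ h) (hM : 0 ≤ M) (hC₁ : 0 ≤ C₁) (hκ : 1 ≤ κ) {e : ℕ → ℕ} {j i : ℕ}
    {u : ℝ} (hu : u ∈ Icc (i * h : ℝ) (I * h)) :
    NG.rad2 e κ h a g j i
      ≤ Real.exp (NG.C2 M C₁ * B₀) * (κ + 2 * u) ^ e j * NG.Am a g u := by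
  have hi0 : (0:ℝ) ≤ i * h := by positivity
  have hu0 : u ∈ Icc (0:ℝ) (I * h) := ⟨hi0.trans hu.1, hu.2⟩
  have hA := hD.epath.Apos hu0
  have h3 : NG.Abar a g h i ≤ Real.exp (NG.C2 M C₁ * B₀) * NG.Am a g u := by
    unfold NG.Abar
    refine Finset.sup'_le _ _ fun k hk => ?_
    rw [Finset.mem_range] at hk
    refine NG.A_quasi' hD.epath hM hC₁ hD.budget (by positivity) ?_ hu.2
    refine le_trans ?_ hu.1
    exact mul_le_mul_of_nonneg_right (Nat.cast_le.2 (by omega)) h0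
  have hLi : 1 ≤ NG.Lam κ h i := NG.one_le_Lam h0 hκ i
  have hLle : NG.Lam κ h i ≤ κ + 2 * u := by
    unfold NG.Lam; linarith [hu.1]
  have hL0 : 0 ≤ κ + 2 * u := by linarith [hu0.1]
  unfold NG.rad2
  calc NG.Lam κ h i ^ e j * NG.Abar a g h i
      ≤ (κ + 2 * u) ^ e j * (Real.exp (NG.C2 M C₁ * B₀) * NG.Am a g u) := by
        refine mul_le_mul (pow_le_pow_left₀ (by linarith) hLle _) h3
          (NG.Abar_pos hD.epath h0 i).le (by positivity)
    _ = _ := by ring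

/-- constant of the height bound at all earlier times -/
noncomputable def K9 (M C₁ B₀ C₈ : ℝ) : ℝ :=
  (2 * NG.K2 M C₁ B₀ + C₈) * Real.exp (NG.C2 M C₁ * B₀)

/-- height bound at ALL times `v ≤ u`, `u ≥ i h` -/
theorem height_before (hD : NG.NGData I h κ M C₁ ε B₀ C₈ a g b g₁ S₀ H₀ H₀' H H₁ gS)
    (h0 : 0 ≤ h) (hM : 0 ≤ M) (hC₁ : 0 ≤ C₁) (hε0 : 0 ≤ ε) (hε1 : ε ≤ 1) (hB0 : 0 ≤ B₀)
    (hC₈ : 0 ≤ C₈) (hκ : 1 ≤ κ) {e : ℕ → ℕ} {j i : ℕ} (hej : 1 ≤ e j)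
    {S : Finset X} (hS : S ⊆ S₀) (hSne : S.Nonempty)
    (hcov : NG.Cov S S₀ (NG.rad2 e κ h a g j i)) {u v : ℝ} (hu : u ∈ Icc (i * h : ℝ) (I * h))
    (hv : v ∈ Icc 0 u) :
    H S v ≤ K9 M C₁ B₀ C₈ * (κ + 2 * u) ^ e j * NG.Am a g u := by
  have hi0 : (0:ℝ) ≤ i * h := by positivity
  have hu0 : u ∈ Icc (0:ℝ) (I * h) := ⟨hi0.trans hu.1, hu.2⟩
  have hv0 : v ∈ Icc (0:ℝ) (I * h) := ⟨hv.1, hv.2.trans hu.2⟩
  have h1 := hD.comp S hS hSne _ (NG.rad2_nonneg hD.epath h0 hκ e j i) hcov _ hv0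
  have h2 := NG.trivial_bound hD.epath hM hC₁ hε0 hε1 hB0 hD.budget hD.dH₀ hD.H₀err hκ hD.init hv0
  have h3 := rad2_le (e := e) (j := j) hD h0 hM hC₁ hκ hu
  have h4 := NG.A_quasi' hD.epath hM hC₁ hD.budget hv.1 hv.2 hu.2
  have hAu := hD.epath.Apos hu0
  have hAv := hD.epath.Apos hv0
  have hL : 1 ≤ κ + 2 * u := by linarith [hu0.1]
  have h5 : κ + 2 * u ≤ (κ + 2 * u) ^ e j := le_self_pow₀ hL (by omega)
  have hK2 : 0 ≤ NG.K2 M C₁ B₀ := by unfold NG.K2; positivity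
  have h6 : H₀ v ≤ NG.K2 M C₁ B₀ * (κ + 2 * u) ^ e j * (Real.exp (NG.C2 M C₁ * B₀) * NG.Am a g u) := by
    refine h2.trans ?_
    have h7 : κ + 2 * v ≤ (κ + 2 * u) ^ e j := le_trans (by linarith [hv.2]) h5
    have h8 : 0 ≤ κ + 2 * v := by linarith [hv.1]
    gcongr
  have h9 : C₈ * NG.rad2 e κ h a g j i
      ≤ C₈ * (Real.exp (NG.C2 M C₁ * B₀) * (κ + 2 * u) ^ e j * NG.Am a g u) := by gcongr
  unfold K9
  linarith

end abs

variable {E : Type*} [NormedAddCommGroup E] [InnerProductSpace ℝ E] [FiniteDimensional ℝ E]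
  [MeasurableSpace E] [BorelSpace E]

variable {T : Submodule ℝ E} {m : ℕ} {G : Set E} {h : ℝ} {ν : Measure E} {P : E → E →L[ℝ] E}
  {z c : E} {k k' K : ℝ → ℝ}

/-- the integral of the capped function over the bottom ball -/
lemma bot_le (hC : CylStat m T G h ν P) {S S₀ : Finset E} {R ρ s R' : ℝ} (hS : S.Nonempty)
    (hR : 0 < R) (hFar : Far S R) (hne : S₀.Nonempty) (hcov : NG.Cov S S₀ ρ) (hs : 0 < s)
    (hsR : s < R') (hG : BallIn T G z R') :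
    ∫ y in bset T z s, capF T S R y ∂ν
      ≤ (∫ y in bset T z s, infDist (co T y) (S₀ : Set E) ^ 2 ∂ν)
        + ρ * ν.real (bset T z s) := by
  haveI := hC.fin
  have hbm := measurableSet_bset T z s
  have iF := integrable_F (F := capF T S R) hC (contDiff_capF T S R).continuous
    (capF_nonneg hS hR hFar) (capF_le_sq hS hR hFar)
  have hinf : Continuous fun y : E => infDist (co T y) (S₀ : Set E) ^ 2 :=
    ((continuous_infDist_pt _).comp (co T).continuous).pow 2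
  obtain ⟨C, hCb⟩ := CylStat.ball_bound hC hinf hs (fun x hx hx2 => hG x hx (hx2.trans hsR.le))
  have i0 : IntegrableOn (fun y => infDist (co T y) (S₀ : Set E) ^ 2) (bset T z s) ν := by
    refine Measure.integrableOn_of_bounded (M := C) (measure_ne_top ν _)
      hinf.aestronglyMeasurable ?_
    rw [ae_restrict_iff' hbm]
    filter_upwards [hCb] with y hy hmem
    exact hy hmem
  have i1 : IntegrableOn (fun _ : E => ρ) (bset T z s) ν := (integrable_const ρ).integrableOn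
  have h1 : ∫ y in bset T z s, capF T S R y ∂ν
      ≤ ∫ y in bset T z s, (infDist (co T y) (S₀ : Set E) ^ 2 + ρ) ∂ν := by
    refine setIntegral_mono_on iF.integrableOn (Integrable.add i0 i1) hbm ?_
    intro y _
    obtain ⟨c, hc, hcd⟩ := (S₀.finite_toSet.isClosed (X := E)).exists_infDist_eq_dist
      (by exact_mod_cast hne) (co T y)
    have h2 := capF_le_of_cov (T := T) hS hR hFar hcov y c (by exact_mod_cast hc)
    have h3 : hsq T c y = infDist (co T y) (S₀ : Set E) ^ 2 / 2 := by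
      rw [hcd, dist_eq_norm]; rfl
    rw [h3] at h2
    linarith
  refine h1.trans (le_of_eq ?_)
  rw [integral_add i0 i1, setIntegral_const, smul_eq_mul]
  ring

/-- constant of `mass_out_event` -/
noncomputable def Kout (km M C₁ B₀ C₈ κ₁ A₁ : ℝ) : ℝ :=
  32 * (3 * (K9 M C₁ B₀ C₈ / (2 * km)) + (κ₁ + A₁) * Real.exp (NG.C2 M C₁ * B₀))

/-- **(C) the mass outside the quarter windows at an event.** -/
theorem mass_out_event (hC : CylStat m T G h ν P) (hk : Kern k k' K) {km : ℝ} (hkm : 0 < km)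
    (hkl : ∀ s ∈ Icc (9 / 25 : ℝ) (81 / 100), km ≤ k s) (hm : 1 ≤ m)
    {cQ : ℝ} {I : ℕ} {η κ M C₁ ε B₀ C₈ s R' R₁ δ κ₁ A₁ : ℝ} {S₀ : Finset E}
    {H₀ H₀' : ℝ → ℝ} {H₁ : Finset E → ℝ → ℝ} {e : ℕ → ℕ}
    (hs : 0 < s) (hη : 0 ≤ η) (hR : s * Real.exp (I * η) < R') (hG : BallIn T G z R')
    (hR₁ : 0 < R₁) (hT : ∀ c ∈ S₀, c ∈ Tᗮ) (hδ : 0 ≤ δ)
    (hM : 0 ≤ M) (hC₁ : 0 ≤ C₁) (hε0 : 0 ≤ ε) (hε1 : ε ≤ 1) (hB0 : 0 ≤ B₀) (hC₈ : 0 ≤ C₈)
    (hκ : 1 ≤ κ) (hκ₁ : 0 ≤ κ₁) (hA₁ : 0 ≤ A₁)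
    (hD : NG.NGData I η κ M C₁ ε B₀ C₈ (aU m T z K ν cQ s) (gU m T z K P ν s) (bU m T z k P ν s)
      (g₁U m T z k K P ν s) S₀ H₀ H₀'
      (fun S => HU m T z k (capF T S (wR S R₁)) P ν s δ) H₁
      (fun S => gSU m T z K (capF T S (wR S R₁)) P ν s))
    (hbot : ∫ y in bset T z s, infDist (co T y) (S₀ : Set E) ^ 2 ∂ν
      ≤ κ₁ * s ^ m * NG.Am (aU m T z K ν cQ s) (gU m T z K P ν s) 0)
    (hmass : ν.real (bset T z s) ≤ A₁ * s ^ m)
    {i j : ℕ} (hej : 1 ≤ e j) {S : Finset E} (hS : S ⊆ S₀) (hSne : S.Nonempty)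
    (hcov : NG.Cov S S₀ (NG.rad2 e κ η (aU m T z K ν cQ s) (gU m T z K P ν s) j i))
    {u : ℝ} (hu : u ∈ Icc (i * η : ℝ) (I * η)) :
    ν.real (outSet T z S (wR S R₁) (9 / 10 * (s * Real.exp u)))
      ≤ Kout km M C₁ B₀ C₈ κ₁ A₁ * ((κ + 2 * u) ^ e j
          * NG.Am (aU m T z K ν cQ s) (gU m T z K P ν s) u / wR S R₁ ^ 2) * (s * Real.exp u) ^ m
        + 16 * Dex T P ν z (s * Real.exp u) := by
  haveI := hC.fin
  set a := aU m T z K ν cQ s with ha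
  set g := gU m T z K P ν s with hg
  set t := s * Real.exp u with ht
  have hu00 : (0:ℝ) ≤ u := le_trans (by positivity) hu.1
  have hu0 : u ∈ Icc (0:ℝ) (I * η) := ⟨hu00, hu.2⟩
  have hst : s ≤ t := by
    have := Real.one_le_exp hu00
    rw [ht]; nlinarith
  have htR : t < R' := by
    refine lt_of_le_of_lt ?_ hR
    rw [ht]; gcongr; exact hu.2
  have hw := wR_pos S hR₁
  have hFar := far_wR (R₁ := R₁) S
  set R := wR S R₁ with hRdef
  have hAu := hD.epath.Apos hu0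
  have hL : 1 ≤ κ + 2 * u := by linarith
  have hLe : 1 ≤ (κ + 2 * u) ^ e j := one_le_pow₀ hL
  -- heights
  have hH : ∀ τ ∈ Icc s t, 2 * hgtTh m T z k (capF T S R) P ν τ
      ≤ K9 M C₁ B₀ C₈ * (κ + 2 * u) ^ e j * NG.Am a g u := by
    intro τ hτ
    have hτ0 : 0 < τ := hs.trans_le hτ.1
    set v := Real.log (τ / s) with hv
    have hv0 : 0 ≤ v := Real.log_nonneg ((one_le_div hs).2 hτ.1)
    have hvu : v ≤ u := by
      rw [hv, ← Real.log_exp u]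
      refine Real.log_le_log (by positivity) ?_
      rw [div_le_iff₀ hs]
      have := hτ.2
      rw [ht] at this
      linarith
    have hτe : s * Real.exp v = τ := by
      rw [hv, Real.exp_log (by positivity)]
      field_simp
    have h1 := height_before hD hη hM hC₁ hε0 hε1 hB0 hC₈ hκ hej hS hSne hcov hu ⟨hv0, hvu⟩
    have h2 : HU m T z k (capF T S (wR S R₁)) P ν s δ v
        = 2 * hgtTh m T z k (capF T S R) P ν τ + δ := by
      unfold HU; rw [hτe]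
    have h3 : HU m T z k (capF T S (wR S R₁)) P ν s δ v
        ≤ K9 M C₁ B₀ C₈ * (κ + 2 * u) ^ e j * NG.Am a g u := h1
    linarith
  have hA := int_le (z := z) (F := capF T S R) (Fmax := R ^ 2 / 2) hC hk hkm hkl hm
    (contDiff_capF T S R).continuous (capF_nonneg hSne hw hFar) (capF_le_sq hSne hw hFar)
    hs hst htR hG hH
  have hB := bot_le (z := z) hC hSne hw hFar (hSne.mono hS) hcov hs (hst.trans_lt htR) hG
  have hr := rad2_le (e := e) (j := j) hD hη hM hC₁ hκ hu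
  have hA0 := NG.A_quasi' hD.epath hM hC₁ hD.budget le_rfl hu00 hu.2
  have hout := mass_out_le (z := z) (ρ := 9 / 10 * t) hC hSne hw hFar
  set Ex := Real.exp (NG.C2 M C₁ * B₀) with hEx
  have hEx0 : 0 < Ex := Real.exp_pos _
  have hsm : s ^ m ≤ t ^ m := by gcongr
  have hC0 : ∫ y in bset T z s, capF T S R y ∂ν
      ≤ (κ₁ + A₁) * Ex * ((κ + 2 * u) ^ e j * NG.Am a g u) * t ^ m := by
    have h1 : κ₁ * s ^ m * NG.Am a g 0 ≤ κ₁ * t ^ m * (Ex * NG.Am a g u * (κ + 2 * u) ^ e j) := by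
      have h2 : NG.Am a g 0 ≤ Ex * NG.Am a g u * (κ + 2 * u) ^ e j := by
        calc NG.Am a g 0 ≤ Ex * NG.Am a g u * 1 := by rw [mul_one]; exact hA0
          _ ≤ _ := by gcongr
      have h3 : 0 ≤ NG.Am a g 0 := (hD.epath.Apos ⟨le_rfl, hu00.trans hu.2⟩).le
      gcongr
    have h4 : NG.rad2 e κ η a g j i * ν.real (bset T z s)
        ≤ (Ex * (κ + 2 * u) ^ e j * NG.Am a g u) * (A₁ * t ^ m) := by
      have h5 : ν.real (bset T z s) ≤ A₁ * t ^ m := hmass.trans (by gcongr)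
      exact mul_le_mul hr h5 measureReal_nonneg (by positivity)
    linarith
  have hR2 : 0 < R ^ 2 := by positivity
  have hfin : 32 / R ^ 2 * (∫ y in bset T z (9 / 10 * t), capF T S R y ∂ν)
      ≤ 32 / R ^ 2 * (3 * (K9 M C₁ B₀ C₈ * (κ + 2 * u) ^ e j * NG.Am a g u / (2 * km)) * t ^ m
        + (κ₁ + A₁) * Ex * ((κ + 2 * u) ^ e j * NG.Am a g u) * t ^ m
        + R ^ 2 / 2 * Dex T P ν z t) := by
    refine mul_le_mul_of_nonneg_left ?_ (by positivity)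
    linarith
  refine hout.trans (hfin.trans (le_of_eq ?_))
  unfold Kout
  rw [← hEx]
  field_simp
  ring

end Vale.Agent.P214.CAPF
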