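import Vale.Agent.P214.CAPF.Fam
import Vale.Agent.P214.NG.Ode
import Vale.Agent.P214.NGP.Final

/-!
# P214, block CAPF (3): the path functions of a centre over `CylStat`

Variable `u`, scale `t = s e^u`.
-/

open Set Filter Topology MeasureTheory Metric
open scoped RealInnerProductSpace

set_option linter.all false

namespace Vale.Agent.P214.CAPF

open Vale.Agent.P214.FV Vale.Agent.P214.ODE Vale.Agent.P214.NGP

variable {E : Type*} [NormedAddCommGroup E] [InnerProductSpace ℝ E] [FiniteDimensional ℝ E]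

/-- a vertical height function: the properties used by the height ODE -/
structure VertF (T : Submodule ℝ E) (F : E → ℝ) : Prop where
  smooth : ContDiff ℝ 2 F
  nonneg : ∀ y, 0 ≤ F y
  grad_sq : ∀ y, ‖grad F y‖ ^ 2 ≤ 2 * F y
  star_grad : ∀ y, T.starProjection (grad F y) = 0
  hess_le : ∀ (S : Submodule ℝ E) (y : E),
    hess F S.starProjection y ≤ FV.tilt T S.starProjection

variable {T : Submodule ℝ E} {S : Finset E} {R : ℝ}

lemma vertF_capF (hS : S.Nonempty) (hR : 0 < R) (hF : Far S R) (hT : ∀ c ∈ S, c ∈ Tᗮ) :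
    VertF T (capF T S R) :=
  ⟨contDiff_capF T S R, capF_nonneg hS hR hF, norm_grad_capF_le hS hR hF hT,
    star_grad_capF hS hR hF hT, hess_capF_le hS hR hF hT⟩

lemma vertF_stair {ι : Type*} [Fintype ι] [Nonempty ι] {β : ℝ} (hβ : 0 < β) {c : ι → E}
    (hc : ∀ i, c i ∈ Tᗮ) : VertF T (stair T β c) :=
  ⟨contDiff_stair, stair_nonneg hβ, norm_grad_stair_le hβ hc, star_grad_stair hβ hc,
    hess_stair_le hβ hc⟩

lemma vertF_hsq {c : E} (hc : c ∈ Tᗮ) : VertF T (hsq T c) :=
  ⟨contDiff_hsq T c, fun y => by unfold hsq; positivity,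
    fun y => by rw [grad_hsq hc]; unfold hsq; linarith,
    fun y => by rw [grad_hsq hc]; exact star_hgt hc y,
    fun S y => le_of_eq (hess_hgt_sq hc _ y)⟩

variable [MeasurableSpace E] [BorelSpace E]

variable {m : ℕ} {G : Set E} {h : ℝ} {ν : Measure E} {P : E → E →L[ℝ] E}
  {z c : E} {k k' K : ℝ → ℝ}

/-- `t^{2-m} ∫ σ k(σ) tilt`, `σ = |x|²/t²` -/
noncomputable def annK (m : ℕ) (T : Submodule ℝ E) (z : E) (k : ℝ → ℝ) (P : E → E →L[ℝ] E)
    (ν : Measure E) (t : ℝ) : ℝ :=
  t ^ (2 - (m : ℤ)) * ∫ y, (bsq T z y / t ^ 2 * k (bsq T z y / t ^ 2)) * ODE.tilt T P y ∂ν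

lemma integrable_ann (hC : CylStat m T G h ν P) (hk : Kern k k' K) {t : ℝ} (ht : 0 < t) :
    Integrable (fun y => (bsq T z y / t ^ 2 * k (bsq T z y / t ^ 2)) * ODE.tilt T P y) ν := by
  haveI := hC.fin
  have hpl := CylStat.plane hC
  exact integrable_kernel (ψ := fun s => s * k s) (continuous_id.mul hk.pk.continuous)
    (fun s hs => by simp [hk.pk.zero s hs]) (continuous_bsq T z).aestronglyMeasurable
    (bsq_nonneg T z) (aesm_tilt hpl.meas) (R := t + 1) (C := 2 * (Module.finrank ℝ E : ℝ))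
    (by filter_upwards [hpl.abs_tilt_le (T := T)] with y hy _ using hy) ht (by linarith)

lemma annK_nonneg (hC : CylStat m T G h ν P) (hk : Kern k k' K) {t : ℝ} (ht : 0 < t) :
    0 ≤ annK m T z k P ν t := by
  unfold annK
  refine mul_nonneg (zpow_nonneg ht.le _) (integral_nonneg_of_ae ?_)
  filter_upwards [CylStat.tilt_nonneg hC] with y hy
  exact mul_nonneg (mul_nonneg (div_nonneg (bsq_nonneg T z y) (by positivity)) (hk.nonneg _)) hy

/-- exact derivative of `tiltK` -/
lemma hasDerivAt_tiltK (hC : CylStat m T G h ν P) (hk : Kern k k' K) {t : ℝ} (ht : 0 < t) :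
    HasDerivAt (tiltK m T z K P ν)
      (t⁻¹ * ((2 - (m : ℝ)) * tiltK m T z K P ν t + annK m T z k P ν t)) t := by
  haveI := hC.fin
  have hpl := CylStat.plane hC
  have hb : ∀ᵐ y ∂ν, |ODE.tilt T P y| ≤ 2 * (Module.finrank ℝ E : ℝ) := hpl.abs_tilt_le
  have key := hasDerivAt_scaled (ν := ν) hk.pK (continuous_bsq T z).aestronglyMeasurable
    (bsq_nonneg T z) (w := ODE.tilt T P)
    (aesm_tilt hpl.meas) (R := t + 1) (C := 2 * (Module.finrank ℝ E : ℝ))
    (by filter_upwards [hb] with y hy _ using hy) ht (by linarith) (2 - (m : ℤ))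
  refine key.congr_deriv ?_
  congr 1
  unfold tiltK annK
  have i1 := integrable_K (z := z) hC hk ht (aesm_tilt (T := T) hpl.meas) hb
  have i2 := integrable_ann (z := z) hC hk ht
  have e1 : ∫ y, (((2 - (m : ℤ) : ℤ) : ℝ) * K (bsq T z y / t ^ 2)
      - 2 * (bsq T z y / t ^ 2) * (-k (bsq T z y / t ^ 2) / 2)) * ODE.tilt T P y ∂ν
      = (2 - (m : ℝ)) * ∫ y, K (bsq T z y / t ^ 2) * ODE.tilt T P y ∂ν
        + ∫ y, (bsq T z y / t ^ 2 * k (bsq T z y / t ^ 2)) * ODE.tilt T P y ∂ν := by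
    rw [← integral_const_mul, ← integral_add (i1.const_mul _) i2]
    refine integral_congr_ae (Eventually.of_forall fun y => ?_)
    simp only
    push_cast
    ring
  rw [e1]
  ring

/-- **the quartic error is controlled by the energy in the annulus** -/
lemma neg_errTh_le_ann (hC : CylStat m T G h ν P) (hk : Kern k k' K)
    (hk0 : ∀ s, s ≤ 1 / 4 → k s = 0) {F : E → ℝ} (hF : Continuous F) {t R S : ℝ} (ht : 0 < t)
    (htR : t < R) (hG : BallIn T G z R) (hF0 : ∀ᵐ y ∂ν, bsq T z y < t ^ 2 → 0 ≤ F y)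
    (hFS : ∀ᵐ y ∂ν, bsq T z y < t ^ 2 → F y ≤ S) (hS : 0 ≤ S) :
    -errTh m T z k F P ν t ≤ 4 * m * S / t ^ 2 * annK m T z k P ν t := by
  haveI := hC.fin
  have ham : AEStronglyMeasurable (bsq T z) ν := (continuous_bsq T z).aestronglyMeasurable
  obtain ⟨C, hCb⟩ := CylStat.ball_bound hC hF (ht.trans htR) hG
  have hpl := CylStat.plane hC
  have i2 : Integrable (fun y => k (bsq T z y / t ^ 2)
      * (F y * (ODE.tilt T P y - m * (ODE.rad T P z y / bsq T z y)))) ν := by
    refine integrable_kernel hk.pk.continuous hk.pk.zero ham (bsq_nonneg T z)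
      (hF.aestronglyMeasurable.mul ((aesm_tilt hC.meas).sub ((aesm_ratio hC.meas).const_mul _)))
      (C := |C| * (2 * (Module.finrank ℝ E) + m)) (R := R) ?_ ht htR.le
    filter_upwards [hCb, hpl.abs_tilt_le (T := T), hpl.ratio_mem (T := T) (z := z)]
      with y h1 h2 h3 h4
    show |F y * (ODE.tilt T P y - m * (ODE.rad T P z y / bsq T z y))| ≤ _
    rw [abs_mul]
    refine mul_le_mul ((h1 h4).trans (le_abs_self _)) ?_ (abs_nonneg _) (abs_nonneg _)
    refine (abs_sub _ _).trans ?_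
    refine add_le_add h2 ?_
    rw [abs_of_nonneg (mul_nonneg (Nat.cast_nonneg _) h3.1)]
    calc (m : ℝ) * (ODE.rad T P z y / bsq T z y) ≤ m * 1 := by
          gcongr; exact h3.2
      _ = m := mul_one _
  have ia := integrable_ann (z := z) hC hk ht
  unfold errTh annK
  have e3 : t ^ (2 - (m : ℤ)) = t ^ 2 * t ^ (-(m : ℤ)) := by
    rw [show (2 - (m : ℤ)) = 2 + (-(m : ℤ)) by ring, zpow_add₀ ht.ne']
    norm_cast
  have e1 : 4 * (m : ℝ) * S / t ^ 2 * (t ^ (2 - (m : ℤ)) * ∫ y, (bsq T z y / t ^ 2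
      * k (bsq T z y / t ^ 2)) * ODE.tilt T P y ∂ν)
      = t ^ (-(m : ℤ)) * ∫ y, 4 * (m : ℝ) * S
        * ((bsq T z y / t ^ 2 * k (bsq T z y / t ^ 2)) * ODE.tilt T P y) ∂ν := by
    rw [integral_const_mul, e3]; field_simp
  rw [e1, ← mul_neg, ← integral_neg]
  refine mul_le_mul_of_nonneg_left ?_ (zpow_nonneg ht.le _)
  refine integral_mono_ae i2.neg (ia.const_mul _) ?_
  filter_upwards [hF0, hFS, CylStat.tilt_nonneg hC, CylStat.rad_le_tilt hC z] with y h1 h2 h3 hrt
  show -(k (bsq T z y / t ^ 2) * (F y * (ODE.tilt T P y - m * (ODE.rad T P z y / bsq T z y))))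
    ≤ 4 * (m : ℝ) * S * ((bsq T z y / t ^ 2 * k (bsq T z y / t ^ 2)) * ODE.tilt T P y)
  have hk1 := hk.nonneg (bsq T z y / t ^ 2)
  by_cases hlt : bsq T z y < t ^ 2
  · by_cases hq : bsq T z y / t ^ 2 ≤ 1 / 4
    · rw [hk0 _ hq]; simp
    · rw [not_le] at hq
      have hbp : 0 < bsq T z y := by
        have h5 : 0 < bsq T z y / t ^ 2 := by linarith
        by_contra hcon
        have : bsq T z y / t ^ 2 ≤ 0 := div_nonpos_of_nonpos_of_nonneg (not_lt.1 hcon) (by positivity)
        linarith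
      have hF1 := h1 hlt
      have hF2 := h2 hlt
      have h5 : ODE.rad T P z y / bsq T z y ≤ ODE.tilt T P y := by
        rw [div_le_iff₀ hbp]; linarith
      have h8 : F y * (m * (ODE.rad T P z y / bsq T z y) - ODE.tilt T P y)
          ≤ S * (m * ODE.tilt T P y) := by
        have h9 : m * (ODE.rad T P z y / bsq T z y) - ODE.tilt T P y ≤ m * ODE.tilt T P y := by
          have : (m : ℝ) * (ODE.rad T P z y / bsq T z y) ≤ m * ODE.tilt T P y := by
            gcongr
          linarith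
        have h10 : 0 ≤ (m : ℝ) * ODE.tilt T P y := by positivity
        calc F y * (m * (ODE.rad T P z y / bsq T z y) - ODE.tilt T P y)
            ≤ F y * (m * ODE.tilt T P y) := by gcongr
          _ ≤ S * (m * ODE.tilt T P y) := by gcongr
      have h7 : -(k (bsq T z y / t ^ 2)
          * (F y * (ODE.tilt T P y - m * (ODE.rad T P z y / bsq T z y))))
          = k (bsq T z y / t ^ 2)
            * (F y * (m * (ODE.rad T P z y / bsq T z y) - ODE.tilt T P y)) := by
        ring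
      rw [h7]
      have h11 : 0 ≤ S * (m * ODE.tilt T P y) := by positivity
      calc k (bsq T z y / t ^ 2) * (F y * (m * (ODE.rad T P z y / bsq T z y) - ODE.tilt T P y))
          ≤ k (bsq T z y / t ^ 2) * (S * (m * ODE.tilt T P y)) := by gcongr
        _ = 1 * (k (bsq T z y / t ^ 2) * (S * (m * ODE.tilt T P y))) := (one_mul _).symm
        _ ≤ (4 * (bsq T z y / t ^ 2)) * (k (bsq T z y / t ^ 2) * (S * (m * ODE.tilt T P y))) := by
            gcongr; linarith
        _ = _ := by ring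
  · have h4 : k (bsq T z y / t ^ 2) = 0 := by
      refine hk.pk.zero _ ?_
      rw [one_le_div (by positivity)]
      exact not_lt.1 hlt
    rw [h4]; simp

/-- change of variable `t = s e^u` -/
lemma comp_exp {f : ℝ → ℝ} {D s u : ℝ} (hs : 0 < s)
    (hf : HasDerivAt f ((s * Real.exp u)⁻¹ * D) (s * Real.exp u)) :
    HasDerivAt (fun u => f (s * Real.exp u)) D u := by
  have h1 : HasDerivAt (fun u => s * Real.exp u) (s * Real.exp u) u :=
    (Real.hasDerivAt_exp u).const_mul s
  have h2 := hf.comp u h1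
  have hp : 0 < s * Real.exp u := by positivity
  have h3 : HasDerivAt (fun u => f (s * Real.exp u))
      ((s * Real.exp u)⁻¹ * D * (s * Real.exp u)) u := h2
  refine h3.congr_deriv ?_
  field_simp

/-! ### the functions of `u` -/

/-- `a` -/
noncomputable def aU (m : ℕ) (T : Submodule ℝ E) (z : E) (K : ℝ → ℝ) (ν : Measure E) (cQ s : ℝ)
    (u : ℝ) : ℝ := aK m T z K ν cQ (s * Real.exp u)

/-- `g` -/
noncomputable def gU (m : ℕ) (T : Submodule ℝ E) (z : E) (K : ℝ → ℝ) (P : E → E →L[ℝ] E)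
    (ν : Measure E) (s : ℝ) (u : ℝ) : ℝ := tiltK m T z K P ν (s * Real.exp u)

/-- `b` -/
noncomputable def bU (m : ℕ) (T : Submodule ℝ E) (z : E) (k : ℝ → ℝ) (P : E → E →L[ℝ] E)
    (ν : Measure E) (s : ℝ) (u : ℝ) : ℝ := radK m T z k P ν (s * Real.exp u)

/-- `g'` -/
noncomputable def g₁U (m : ℕ) (T : Submodule ℝ E) (z : E) (k K : ℝ → ℝ) (P : E → E →L[ℝ] E)
    (ν : Measure E) (s : ℝ) (u : ℝ) : ℝ :=
  (2 - (m : ℝ)) * tiltK m T z K P ν (s * Real.exp u) + annK m T z k P ν (s * Real.exp u)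

/-- `H = 2 H^θ_F + δ` -/
noncomputable def HU (m : ℕ) (T : Submodule ℝ E) (z : E) (k : ℝ → ℝ) (F : E → ℝ)
    (P : E → E →L[ℝ] E) (ν : Measure E) (s δ : ℝ) (u : ℝ) : ℝ :=
  2 * hgtTh m T z k F P ν (s * Real.exp u) + δ

/-- `H'` -/
noncomputable def H₁U (m : ℕ) (T : Submodule ℝ E) (z : E) (k K : ℝ → ℝ) (F : E → ℝ)
    (P : E → E →L[ℝ] E) (ν : Measure E) (s : ℝ) (u : ℝ) : ℝ :=
  2 * (hessK m T z K F P ν (s * Real.exp u) - errTh m T z k F P ν (s * Real.exp u))

/-- `g_F` -/
noncomputable def gSU (m : ℕ) (T : Submodule ℝ E) (z : E) (K : ℝ → ℝ) (F : E → ℝ)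
    (P : E → E →L[ℝ] E) (ν : Measure E) (s : ℝ) (u : ℝ) : ℝ :=
  hessK m T z K F P ν (s * Real.exp u)

/-- **The energy path of a centre.** -/
theorem epath (hC : CylStat m T G h ν P) (hk : Kern k k' K) (cQ : ℝ) {s α β R M : ℝ}
    (hs : 0 < s) (hR : s * Real.exp β ≤ R) (hG : BallIn T G z R)
    (hg : 0 < tiltK m T z K P ν (s * Real.exp α)) (hM : (m : ℝ) - 2 ≤ M) :
    NG.EPath α β M (aU m T z K ν cQ s) (gU m T z K P ν s) (bU m T z k P ν s)
      (g₁U m T z k K P ν s) where
  da u hu := by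
    have ht : 0 < s * Real.exp u := by positivity
    have h1 : s * Real.exp u ≤ s * Real.exp β := by gcongr; exact hu.2
    exact comp_exp hs (CylStat.a_ode hC hk ht (fun x hx hx2 => hG x hx (hx2.trans (h1.trans hR))) cQ)
  dg u hu := comp_exp hs (hasDerivAt_tiltK hC hk (by positivity))
  gpos u hu := by
    refine CylStat.tiltK_pos hC hk (by positivity : 0 < s * Real.exp α) ?_ hg
    gcongr; exact hu.1
  glow u hu := by
    have h1 := annK_nonneg (z := z) hC hk (by positivity : 0 < s * Real.exp u)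
    have h2 := CylStat.tiltK_nonneg (z := z) hC hk (by positivity : 0 < s * Real.exp u)
    unfold gU g₁U
    nlinarith
  bnn u hu := CylStat.radK_nonneg hk (by positivity)

lemma integrable_hess (hC : CylStat m T G h ν P) (hk : Kern k k' K) {F : E → ℝ}
    (hF : ContDiff ℝ 2 F) {t : ℝ} (ht : 0 < t) (hG : BallIn T G z t) :
    Integrable (fun y => K (bsq T z y / t ^ 2) * hess F (P y) y) ν :=
  hC.integrable_prod₁ (φ := fun y => K (bsq T z y / t ^ 2)) (W := grad F)
    (contDiff_profile hk.pK t).continuous (contDiff_grad hF)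
    (baseCpt_of_zero hG fun y hy => profile_zero hk.pK ht y hy)

/-- `g_F ≤ g` -/
lemma hessK_le_tiltK (hC : CylStat m T G h ν P) (hk : Kern k k' K) {F : E → ℝ}
    (hF : VertF T F) {t : ℝ} (ht : 0 < t) (hG : BallIn T G z t) :
    hessK m T z K F P ν t ≤ tiltK m T z K P ν t := by
  have hpl := CylStat.plane hC
  unfold hessK tiltK
  refine mul_le_mul_of_nonneg_left ?_ (zpow_nonneg ht.le _)
  refine integral_mono_ae (integrable_hess hC hk hF.smooth ht hG)
    (integrable_K (z := z) hC hk ht (aesm_tilt (T := T) hpl.meas) hpl.abs_tilt_le) ?_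
  filter_upwards [hC.proj] with y hy
  obtain ⟨Q, -, hQ⟩ := hy
  have h1 := hF.hess_le Q y
  rw [← hQ] at h1
  have h2 : ODE.tilt T P y = FV.tilt T (P y) := (TH.tilt_agree T P y).symm
  show K (bsq T z y / t ^ 2) * hess F (P y) y ≤ K (bsq T z y / t ^ 2) * ODE.tilt T P y
  rw [h2]
  exact mul_le_mul_of_nonneg_left h1 (hk.K_nonneg _)

/-- **The height path of a centre for a vertical function.** -/
theorem hpath (hC : CylStat m T G h ν P) (hk : Kern k k' K) (hk0 : ∀ s, s ≤ 1 / 4 → k s = 0)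
    {F : E → ℝ} (hF : VertF T F) {s α β R C₁ ε δ : ℝ}
    (hs : 0 < s) (hR : s * Real.exp β < R) (hG : BallIn T G z R) (hδ : 0 < δ)
    (hC₁ : (m : ℝ) - 2 ≤ C₁) (hε : 0 ≤ ε)
    (hsup : ∀ u ∈ Icc α β, ∀ᵐ y ∂ν, bsq T z y < (s * Real.exp u) ^ 2 →
      8 * m * F y ≤ ε * (s * Real.exp u) ^ 2) :
    NG.HPath α β C₁ ε (gU m T z K P ν s) (bU m T z k P ν s) (g₁U m T z k K P ν s)
      (HU m T z k F P ν s δ) (H₁U m T z k K F P ν s) (gSU m T z K F P ν s) := by
  have hGt : ∀ u ∈ Icc α β, s * Real.exp u < R := fun u hu => by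
    refine lt_of_le_of_lt ?_ hR
    gcongr; exact hu.2
  have hF0 : ∀ u, ∀ᵐ y ∂ν, bsq T z y < (s * Real.exp u) ^ 2 → 0 ≤ F y :=
    fun u => Eventually.of_forall fun y _ => hF.nonneg y
  -- the two error bounds, `m = 0` is trivial
  have key : ∀ u ∈ Icc α β,
      -errTh m T z k F P ν (s * Real.exp u) ≤ ε / 2 * radK m T z k P ν (s * Real.exp u) ∧
      -errTh m T z k F P ν (s * Real.exp u) ≤ ε / 2 * annK m T z k P ν (s * Real.exp u) := by
    intro u hu
    have ht : 0 < s * Real.exp u := by positivity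
    rcases Nat.eq_zero_or_pos m with hm | hm
    · obtain ⟨C, hCb⟩ := CylStat.ball_bound hC hF.smooth.continuous (ht.trans (hGt u hu)) hG
      have hFS : ∀ᵐ y ∂ν, bsq T z y < (s * Real.exp u) ^ 2 → F y ≤ |C| := by
        filter_upwards [hCb] with y hy hlt
        have h1 := hy (hlt.trans_le (by
          have := (hGt u hu).le
          gcongr))
        exact ((le_abs_self _).trans h1).trans (le_abs_self _)
      have h1 := CylStat.neg_errTh_le hC hk hk0 hF.smooth.continuous ht (hGt u hu) hG (hF0 u) hFS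
        (abs_nonneg _)
      have e0 : 4 * ((m : ℕ) : ℝ) * |C| / (s * Real.exp u) ^ 2 = 0 := by rw [hm]; simp
      rw [e0, zero_mul] at h1
      have h2 : 0 ≤ radK m T z k P ν (s * Real.exp u) := CylStat.radK_nonneg hk ht
      have h3 := annK_nonneg (z := z) hC hk ht
      exact ⟨h1.trans (by positivity), h1.trans (by positivity)⟩
    · have hm0 : (0:ℝ) < m := by exact_mod_cast hm
      set t := s * Real.exp u with htdef
      have hFS : ∀ᵐ y ∂ν, bsq T z y < t ^ 2 → F y ≤ ε * t ^ 2 / (8 * m) := by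
        filter_upwards [hsup u hu] with y hy hlt
        have h1 := hy hlt
        rw [le_div_iff₀ (by positivity)]
        linarith
      have hS0 : 0 ≤ ε * t ^ 2 / (8 * m) := by positivity
      have e0 : 4 * (m : ℝ) * (ε * t ^ 2 / (8 * m)) / t ^ 2 = ε / 2 := by
        field_simp; ring
      have h1 := CylStat.neg_errTh_le hC hk hk0 hF.smooth.continuous ht (hGt u hu) hG (hF0 u) hFS hS0
      have h2 := neg_errTh_le_ann hC hk hk0 hF.smooth.continuous ht (hGt u hu) hG (hF0 u) hFS hS0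
      rw [e0] at h1 h2
      exact ⟨h1, h2⟩
  refine ⟨fun u hu => ?_, fun u hu => ?_, fun u hu => ?_, fun u hu => ?_, fun u hu => ?_,
    fun u hu => ?_⟩
  · have ht : 0 < s * Real.exp u := by positivity
    have h1 := CylStat.height_ode_theta hC hk hF.smooth ht (hGt u hu) hG
    exact ((comp_exp hs h1).const_mul 2).add_const δ
  · have ht : 0 < s * Real.exp u := by positivity
    unfold HU
    have : 0 ≤ hgtTh m T z k F P ν (s * Real.exp u) := by
      unfold hgtTh
      refine mul_nonneg (zpow_nonneg ht.le _) (integral_nonneg_of_ae ?_)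
      filter_upwards [(CylStat.plane hC).theta_mem (T := T) (z := z)] with y hy
      exact mul_nonneg (hk.nonneg _) (mul_nonneg (hF.nonneg y) hy.1)
    linarith
  · have h1 := (key u hu).1
    unfold H₁U gSU bU
    linarith
  · have h1 := (key u hu).2
    have h2 := CylStat.tiltK_nonneg (z := z) hC hk (by positivity : 0 < s * Real.exp u)
    have h3 : 0 ≤ ε * ((C₁ - ((m : ℝ) - 2)) * tiltK m T z K P ν (s * Real.exp u)) :=
      mul_nonneg hε (mul_nonneg (by linarith) h2)
    have h4 : 0 ≤ ε * annK m T z k P ν (s * Real.exp u) :=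
      mul_nonneg hε (annK_nonneg (z := z) hC hk (by positivity))
    unfold H₁U gSU g₁U gU
    linarith
  · have ht : 0 < s * Real.exp u := by positivity
    have h1 := CylStat.cs_two_theta hC hk hF.smooth hF.star_grad ht (hGt u hu) hG
      (Eventually.of_forall fun y _ => hF.grad_sq y)
    have h2 : 0 ≤ radK m T z k P ν (s * Real.exp u) := CylStat.radK_nonneg hk ht
    unfold gSU HU bU
    nlinarith
  · have ht : 0 < s * Real.exp u := by positivity
    exact hessK_le_tiltK hC hk hF ht (fun x hx hx2 => hG x hx (hx2.trans (hGt u hu).le))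

end Vale.Agent.P214.CAPF
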