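import Vale.Agent.P214.NGP.Cyl
import Vale.Agent.P214.FV.Soft

/-!
# P214, block CAPF: capped height functions around finitely many heights

`capF T S R = ∑_{c ∈ S} Ψ_R(|q y - c|²/2) - (|S| - 1) cap`, `Ψ_R` concave, `Ψ_R(r) = r` for
`|q y - c| ≤ R/2`, constant for `|q y - c| ≥ R`.  If the heights `c ∈ S` have mutual distances
`> 2 R`, then near every point `capF` equals the capped half square of ONE height, hence
* `0 ≤ F ≤ R²/2`, `F ≤ |q y - c|²/2`, `|∇F|² ≤ 2F`, `p ∇F = 0`,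
* `-2 winC tilt ≤ hess F P ≤ tilt`, `hess F P = tilt` in the half windows.
-/

open Set Filter Topology MeasureTheory Metric
open scoped RealInnerProductSpace

set_option linter.all false

namespace Vale.Agent.P214.CAPF

open Vale.Agent.P214.FV Vale.Agent.P214.ODE Vale.Agent.P214.NGP

/-! ### the profile -/

/-- `ψ(s) = ∫_0^s win` -/
noncomputable def psi (s : ℝ) : ℝ := ∫ x in (0:ℝ)..s, TH.win x

lemma continuous_win : Continuous TH.win := TH.contDiff_win_two.continuous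

lemma hasDerivAt_psi (s : ℝ) : HasDerivAt psi (TH.win s) s :=
  intervalIntegral.integral_hasDerivAt_right (continuous_win.intervalIntegrable _ _)
    continuous_win.stronglyMeasurable.stronglyMeasurableAtFilter continuous_win.continuousAt

lemma deriv_psi : deriv psi = TH.win := funext fun s => (hasDerivAt_psi s).deriv

lemma contDiff_psi : ContDiff ℝ 2 psi := by
  rw [show (2 : WithTop ℕ∞) = 1 + 1 by norm_num, contDiff_succ_iff_deriv]
  refine ⟨fun s => (hasDerivAt_psi s).differentiableAt, by simp, ?_⟩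
  rw [deriv_psi]
  exact TH.contDiff_win_two.of_le (by norm_num)

lemma psi_zero : psi 0 = 0 := by simp [psi]

lemma psi_mono : Monotone psi :=
  monotone_of_deriv_nonneg (fun s => (hasDerivAt_psi s).differentiableAt) fun s => by
    rw [deriv_psi]; exact TH.win_nonneg s

lemma psi_nonneg {s : ℝ} (hs : 0 ≤ s) : 0 ≤ psi s := psi_zero ▸ psi_mono hs

lemma psi_eq {s : ℝ} (hs0 : 0 ≤ s) (hs : s ≤ 1 / 4) : psi s = s := by
  unfold psi
  rw [intervalIntegral.integral_congr (g := fun _ => (1:ℝ))]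
  · simp
  · intro x hx
    rw [uIcc_of_le hs0] at hx
    exact TH.win_one (hx.2.trans hs)

lemma psi_le_self {s : ℝ} (hs : 0 ≤ s) : psi s ≤ s := by
  have h := intervalIntegral.integral_mono_on (μ := volume) hs (continuous_win.intervalIntegrable 0 s)
    (intervalIntegrable_const (c := (1:ℝ))) (fun x _ => TH.win_le_one x)
  simpa [psi] using h

lemma mul_win_le_psi {s : ℝ} (hs : 0 ≤ s) : s * TH.win s ≤ psi s := by
  have h := intervalIntegral.integral_mono_on (μ := volume) hs (intervalIntegrable_const (c := TH.win s))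
    (continuous_win.intervalIntegrable 0 s) (fun x hx => win_antitone hx.2)
  simpa [psi] using h

lemma psi_const {s : ℝ} (hs : 1 ≤ s) : psi s = psi 1 := by
  unfold psi
  rw [← intervalIntegral.integral_add_adjacent_intervals
    (continuous_win.intervalIntegrable 0 1) (continuous_win.intervalIntegrable 1 s)]
  have h : ∫ x in (1:ℝ)..s, TH.win x = 0 := by
    rw [intervalIntegral.integral_congr (g := fun _ => (0:ℝ))]
    · simp
    · intro x hx
      rw [uIcc_of_le hs] at hx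
      exact TH.win_zero hx.1
  rw [h, add_zero]

lemma psi_one_le : psi 1 ≤ 1 := psi_le_self zero_le_one

lemma le_psi_one : 1 / 4 ≤ psi 1 := by
  have h1 : psi (1 / 4) = 1 / 4 := psi_eq (by norm_num) le_rfl
  rw [← h1]; exact psi_mono (by norm_num)

lemma psi_le_one (s : ℝ) : psi s ≤ psi 1 := by
  rcases le_total s 1 with h | h
  · exact psi_mono h
  · rw [psi_const h]

/-! ### one height -/

variable {E : Type*} [NormedAddCommGroup E] [InnerProductSpace ℝ E] [FiniteDimensional ℝ E]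

/-- the capped half square of the height over `c` -/
noncomputable def caph (T : Submodule ℝ E) (c : E) (R : ℝ) : E → ℝ :=
  vrad T c (fun s => R ^ 2 / 2 * psi (s / R ^ 2))

variable {T : Submodule ℝ E} {c : E} {R : ℝ}

lemma caph_apply (T : Submodule ℝ E) (c : E) (R : ℝ) (y : E) :
    caph T c R y = R ^ 2 / 2 * psi (‖hgt T c y‖ ^ 2 / R ^ 2) := rfl

lemma contDiff_prof (R : ℝ) : ContDiff ℝ 2 (fun s : ℝ => R ^ 2 / 2 * psi (s / R ^ 2)) :=
  contDiff_const.mul (contDiff_psi.comp (contDiff_id.div_const _))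

lemma hasDerivAt_prof (hR : 0 < R) (s : ℝ) :
    HasDerivAt (fun s : ℝ => R ^ 2 / 2 * psi (s / R ^ 2)) (TH.win (s / R ^ 2) / 2) s := by
  have h1 : HasDerivAt (fun s : ℝ => s / R ^ 2) (1 / R ^ 2) s := (hasDerivAt_id s).div_const _
  have h2 := ((hasDerivAt_psi (s / R ^ 2)).comp s h1).const_mul (R ^ 2 / 2)
  refine h2.congr_deriv ?_
  field_simp

lemma deriv_prof (hR : 0 < R) :
    deriv (fun s : ℝ => R ^ 2 / 2 * psi (s / R ^ 2)) = fun s => TH.win (s / R ^ 2) / 2 :=
  funext fun s => (hasDerivAt_prof hR s).deriv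

lemma deriv2_prof (hR : 0 < R) (s : ℝ) :
    deriv (deriv (fun s : ℝ => R ^ 2 / 2 * psi (s / R ^ 2))) s
      = deriv TH.win (s / R ^ 2) / (2 * R ^ 2) := by
  rw [deriv_prof hR]
  have h1 : HasDerivAt (fun s : ℝ => s / R ^ 2) (1 / R ^ 2) s := (hasDerivAt_id s).div_const _
  have h2 := ((TH.profile_win.der (s / R ^ 2)).comp s h1).div_const 2
  have h3 : deriv (fun s => TH.win (s / R ^ 2) / 2) s = deriv TH.win (s / R ^ 2) * (1 / R ^ 2) / 2 :=
    h2.deriv
  rw [h3]; field_simp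

lemma contDiff_caph (T : Submodule ℝ E) (c : E) (R : ℝ) : ContDiff ℝ 2 (caph T c R) :=
  contDiff_vrad T c (contDiff_prof R)

lemma caph_nonneg (y : E) : 0 ≤ caph T c R y := by
  rw [caph_apply]
  exact mul_nonneg (by positivity) (psi_nonneg (by positivity))

lemma caph_le_cap (y : E) : caph T c R y ≤ R ^ 2 / 2 * psi 1 := by
  rw [caph_apply]
  exact mul_le_mul_of_nonneg_left (psi_le_one _) (by positivity)

lemma caph_le_hsq (hR : 0 < R) (y : E) : caph T c R y ≤ hsq T c y := by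
  rw [caph_apply, hsq]
  calc R ^ 2 / 2 * psi (‖hgt T c y‖ ^ 2 / R ^ 2)
      ≤ R ^ 2 / 2 * (‖hgt T c y‖ ^ 2 / R ^ 2) :=
        mul_le_mul_of_nonneg_left (psi_le_self (by positivity)) (by positivity)
    _ = ‖hgt T c y‖ ^ 2 / 2 := by field_simp

lemma caph_far (hR : 0 < R) {y : E} (hy : R ≤ ‖hgt T c y‖) :
    caph T c R y = R ^ 2 / 2 * psi 1 := by
  rw [caph_apply, psi_const]
  rw [one_le_div (by positivity)]
  gcongr

/-- lower bound: `min (|q y - c|²/2) (R²/8) ≤ caph` -/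
lemma min_le_caph (hR : 0 < R) (y : E) :
    min (hsq T c y) (R ^ 2 / 8) ≤ caph T c R y := by
  rw [caph_apply, hsq]
  rcases le_total (‖hgt T c y‖ ^ 2 / R ^ 2) (1 / 4) with h | h
  · rw [psi_eq (by positivity) h]
    refine (min_le_left _ _).trans (le_of_eq ?_)
    field_simp
  · refine (min_le_right _ _).trans ?_
    have h1 : (1:ℝ) / 4 ≤ psi (‖hgt T c y‖ ^ 2 / R ^ 2) := by
      have h2 : psi (1 / 4) = 1 / 4 := psi_eq (by norm_num) le_rfl
      rw [← h2]; exact psi_mono h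
    calc R ^ 2 / 8 = R ^ 2 / 2 * (1 / 4) := by ring
      _ ≤ _ := by gcongr

lemma grad_caph (hR : 0 < R) (hc : c ∈ Tᗮ) (y : E) :
    grad (caph T c R) y = TH.win (‖hgt T c y‖ ^ 2 / R ^ 2) • hgt T c y := by
  refine ext_inner_right ℝ fun v => ?_
  rw [inner_grad, inner_smul_left]
  unfold caph
  rw [fderiv_vrad hc ((contDiff_prof R).differentiable (by norm_num) _), deriv_prof hR]
  simp only [RCLike.conj_to_real]
  ring

lemma norm_grad_caph_le (hR : 0 < R) (hc : c ∈ Tᗮ) (y : E) :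
    ‖grad (caph T c R) y‖ ^ 2 ≤ 2 * caph T c R y := by
  rw [grad_caph hR hc, norm_smul, Real.norm_eq_abs, abs_of_nonneg (TH.win_nonneg _), caph_apply]
  have h0 := TH.win_nonneg (‖hgt T c y‖ ^ 2 / R ^ 2)
  have h1 := TH.win_le_one (‖hgt T c y‖ ^ 2 / R ^ 2)
  have h2 : TH.win (‖hgt T c y‖ ^ 2 / R ^ 2) ^ 2 ≤ TH.win (‖hgt T c y‖ ^ 2 / R ^ 2) := by
    nlinarith
  have h3 := mul_win_le_psi (s := ‖hgt T c y‖ ^ 2 / R ^ 2) (by positivity)
  have h4 : ‖hgt T c y‖ ^ 2 = R ^ 2 * (‖hgt T c y‖ ^ 2 / R ^ 2) := by field_simp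
  calc (TH.win (‖hgt T c y‖ ^ 2 / R ^ 2) * ‖hgt T c y‖) ^ 2
      = TH.win (‖hgt T c y‖ ^ 2 / R ^ 2) ^ 2 * ‖hgt T c y‖ ^ 2 := by ring
    _ ≤ TH.win (‖hgt T c y‖ ^ 2 / R ^ 2) * ‖hgt T c y‖ ^ 2 := by gcongr
    _ = R ^ 2 * (‖hgt T c y‖ ^ 2 / R ^ 2 * TH.win (‖hgt T c y‖ ^ 2 / R ^ 2)) := by
        rw [← mul_assoc, ← h4]; ring
    _ ≤ R ^ 2 * psi (‖hgt T c y‖ ^ 2 / R ^ 2) := by gcongr
    _ = _ := by ring

lemma star_hgt (hc : c ∈ Tᗮ) (y : E) : T.starProjection (hgt T c y) = 0 :=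
  (Submodule.starProjection_apply_eq_zero_iff T).2 (hgt_mem hc y)

lemma star_grad_caph (hR : 0 < R) (hc : c ∈ Tᗮ) (y : E) :
    T.starProjection (grad (caph T c R) y) = 0 := by
  rw [grad_caph hR hc, map_smul, star_hgt hc, smul_zero]

lemma hess_caph (hR : 0 < R) (hc : c ∈ Tᗮ) (B : E →L[ℝ] E) (y : E) :
    hess (caph T c R) B y = TH.win (‖hgt T c y‖ ^ 2 / R ^ 2) * FV.tilt T B
      + 2 * deriv TH.win (‖hgt T c y‖ ^ 2 / R ^ 2) / R ^ 2 * ⟪hgt T c y, B (hgt T c y)⟫ := by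
  unfold caph
  rw [hess_vrad hc (contDiff_prof R), deriv2_prof hR, deriv_prof hR]
  field_simp
  ring

lemma inner_hgt_nonneg (S : Submodule ℝ E) (w : E) : 0 ≤ ⟪w, S.starProjection w⟫ := by
  rw [inner_star_self]; positivity

lemma inner_hgt_le (S : Submodule ℝ E) {w : E} (hw : w ∈ Tᗮ) :
    ⟪w, S.starProjection w⟫ ≤ FV.tilt T S.starProjection * ‖w‖ ^ 2 := by
  rw [inner_star_self]; exact norm_sq_star_le_of_mem hw

lemma hess_caph_le (hR : 0 < R) (hc : c ∈ Tᗮ) (S : Submodule ℝ E) (y : E) :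
    hess (caph T c R) S.starProjection y ≤ FV.tilt T S.starProjection := by
  rw [hess_caph hR hc]
  have ht0 : 0 ≤ FV.tilt T S.starProjection := FV.tilt_nonneg S T
  have h1 : TH.win (‖hgt T c y‖ ^ 2 / R ^ 2) * FV.tilt T S.starProjection
      ≤ FV.tilt T S.starProjection := by
    have := TH.win_le_one (‖hgt T c y‖ ^ 2 / R ^ 2)
    nlinarith
  have h2 : 2 * deriv TH.win (‖hgt T c y‖ ^ 2 / R ^ 2) / R ^ 2 *
      ⟪hgt T c y, S.starProjection (hgt T c y)⟫ ≤ 0 := by
    refine mul_nonpos_of_nonpos_of_nonneg ?_ (inner_hgt_nonneg S _)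
    refine div_nonpos_of_nonpos_of_nonneg ?_ (by positivity)
    linarith [deriv_win_nonpos (‖hgt T c y‖ ^ 2 / R ^ 2)]
  linarith

lemma hess_caph_ge (hR : 0 < R) (hc : c ∈ Tᗮ) (S : Submodule ℝ E) (y : E) :
    -(2 * TH.winC) * FV.tilt T S.starProjection ≤ hess (caph T c R) S.starProjection y := by
  rw [hess_caph hR hc]
  have ht0 : 0 ≤ FV.tilt T S.starProjection := FV.tilt_nonneg S T
  set s := ‖hgt T c y‖ ^ 2 / R ^ 2 with hs
  have hs0 : 0 ≤ s := by positivity
  have h1 : 0 ≤ TH.win s * FV.tilt T S.starProjection := mul_nonneg (TH.win_nonneg _) ht0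
  have h2 : ⟪hgt T c y, S.starProjection (hgt T c y)⟫ ≤ FV.tilt T S.starProjection * ‖hgt T c y‖ ^ 2 :=
    inner_hgt_le S (hgt_mem hc y)
  have h3 : 0 ≤ ⟪hgt T c y, S.starProjection (hgt T c y)⟫ := inner_hgt_nonneg S _
  have h4 : ‖hgt T c y‖ ^ 2 = R ^ 2 * s := by rw [hs]; field_simp
  rcases le_or_gt 1 s with h5 | h5
  · have h6 : deriv TH.win s = 0 := TH.profile_dwin.zero s h5
    rw [h6]
    have : 0 ≤ TH.winC * FV.tilt T S.starProjection := mul_nonneg TH.winC_nonneg ht0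
    have e : 2 * (0:ℝ) / R ^ 2 * ⟪hgt T c y, S.starProjection (hgt T c y)⟫ = 0 := by ring
    rw [e]
    linarith
  · have h6 := TH.abs_deriv_win_le hs0
    have h7 := deriv_win_nonpos s
    rw [abs_of_nonpos h7] at h6
    have h8 : -deriv TH.win s * ⟪hgt T c y, S.starProjection (hgt T c y)⟫
        ≤ TH.winC * (FV.tilt T S.starProjection * (R ^ 2 * s)) := by
      rw [← h4]
      exact mul_le_mul h6 h2 h3 TH.winC_nonneg
    have h9 : TH.winC * (FV.tilt T S.starProjection * (R ^ 2 * s))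
        ≤ TH.winC * FV.tilt T S.starProjection * R ^ 2 := by
      have h10 : 0 ≤ TH.winC * FV.tilt T S.starProjection * R ^ 2 := by
        have := TH.winC_nonneg
        positivity
      calc TH.winC * (FV.tilt T S.starProjection * (R ^ 2 * s))
          = TH.winC * FV.tilt T S.starProjection * R ^ 2 * s := by ring
        _ ≤ TH.winC * FV.tilt T S.starProjection * R ^ 2 * 1 := by gcongr
        _ = _ := mul_one _
    have h11 : -(2 * TH.winC) * FV.tilt T S.starProjection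
        ≤ 2 * deriv TH.win s / R ^ 2 * ⟪hgt T c y, S.starProjection (hgt T c y)⟫ := by
      rw [div_mul_eq_mul_div, le_div_iff₀ (by positivity)]
      nlinarith
    linarith

lemma hess_caph_win (hR : 0 < R) (hc : c ∈ Tᗮ) (B : E →L[ℝ] E) {y : E}
    (hy : ‖hgt T c y‖ ≤ R / 2) : hess (caph T c R) B y = FV.tilt T B := by
  rw [hess_caph hR hc]
  have h1 : ‖hgt T c y‖ ^ 2 / R ^ 2 ≤ 1 / 4 := by
    rw [div_le_iff₀ (by positivity)]
    calc ‖hgt T c y‖ ^ 2 ≤ (R / 2) ^ 2 := by gcongr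
      _ = 1 / 4 * R ^ 2 := by ring
  have h2 : deriv TH.win (‖hgt T c y‖ ^ 2 / R ^ 2) = 0 := by
    have := kk_zero _ h1
    unfold kk at this
    linarith
  rw [TH.win_one h1, h2]
  ring

end Vale.Agent.P214.CAPF
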