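import Vale.Agent.P214.CAPF.Inst
import Vale.Agent.P214.NG.Data

/-!
# P214, block CAPF (4): `NG.NGData` from `CylStat`

* `capV R F = Ψ_R(F)`: the concave cap of a vertical function is a vertical function,
* `wR S R₁ = min R₁ (sep S / 3)`: window radius of a finite set of heights,
* `gap`: `g - g_S ≤ (1 + 2 winC) t^{2-m} ∫_{outside the half windows} tilt`,
* `ngData`: all the fields of `NG.NGData`.
-/

open Set Filter Topology MeasureTheory Metric
open scoped RealInnerProductSpace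

set_option linter.all false

namespace Vale.Agent.P214.CAPF

open Vale.Agent.P214.FV Vale.Agent.P214.ODE Vale.Agent.P214.NGP

variable {E : Type*} [NormedAddCommGroup E] [InnerProductSpace ℝ E] [FiniteDimensional ℝ E]

/-! ### caps of vertical functions -/

/-- the concave cap `(R²/2) ψ(2F/R²)` -/
noncomputable def capV (R : ℝ) (F : E → ℝ) (y : E) : ℝ := R ^ 2 / 2 * psi (2 * F y / R ^ 2)

variable {T : Submodule ℝ E} {R : ℝ} {F : E → ℝ}

lemma capV_nonneg (hF0 : ∀ y, 0 ≤ F y) (y : E) : 0 ≤ capV R F y :=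
  mul_nonneg (by positivity) (psi_nonneg (div_nonneg (mul_nonneg zero_le_two (hF0 y))
    (by positivity)))

lemma capV_le (y : E) : capV R F y ≤ R ^ 2 / 2 := by
  unfold capV
  have h1 := psi_le_one (2 * F y / R ^ 2)
  have h2 := psi_one_le
  nlinarith [sq_nonneg R]

lemma capV_le_self (hR : 0 < R) (hF0 : ∀ y, 0 ≤ F y) (y : E) : capV R F y ≤ F y := by
  unfold capV
  have h0 := hF0 y
  calc R ^ 2 / 2 * psi (2 * F y / R ^ 2) ≤ R ^ 2 / 2 * (2 * F y / R ^ 2) :=
        mul_le_mul_of_nonneg_left (psi_le_self (by positivity)) (by positivity)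
    _ = F y := by field_simp

lemma min_le_capV (hR : 0 < R) (hF0 : ∀ y, 0 ≤ F y) (y : E) :
    min (F y) (R ^ 2 / 8) ≤ capV R F y := by
  unfold capV
  have h0 := hF0 y
  rcases le_total (2 * F y / R ^ 2) (1 / 4) with h | h
  · rw [psi_eq (by positivity) h]
    refine (min_le_left _ _).trans (le_of_eq ?_)
    field_simp
  · refine (min_le_right _ _).trans ?_
    have h1 : (1:ℝ) / 4 ≤ psi (2 * F y / R ^ 2) := by
      have h2 : psi (1 / 4) = 1 / 4 := psi_eq (by norm_num) le_rfl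
      rw [← h2]; exact psi_mono h
    calc R ^ 2 / 8 = R ^ 2 / 2 * (1 / 4) := by ring
      _ ≤ _ := by gcongr

lemma contDiff_capV (hF : ContDiff ℝ 2 F) : ContDiff ℝ 2 (capV R F) :=
  contDiff_const.mul (contDiff_psi.comp ((contDiff_const.mul hF).div_const _))

lemma hasDerivAt_scal (hR : 0 < R) (s : ℝ) :
    HasDerivAt (fun s : ℝ => R ^ 2 / 2 * psi (2 * s / R ^ 2)) (TH.win (2 * s / R ^ 2)) s := by
  have h1 : HasDerivAt (fun s : ℝ => 2 * s / R ^ 2) (2 / R ^ 2) s := by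
    have := ((hasDerivAt_id s).const_mul 2).div_const (R ^ 2)
    simpa using this
  have h2 := ((hasDerivAt_psi (2 * s / R ^ 2)).comp s h1).const_mul (R ^ 2 / 2)
  refine h2.congr_deriv ?_
  field_simp

lemma hasDerivAt_winscal (s : ℝ) :
    HasDerivAt (fun s : ℝ => TH.win (2 * s / R ^ 2)) (deriv TH.win (2 * s / R ^ 2) * (2 / R ^ 2))
      s := by
  have h1 : HasDerivAt (fun s : ℝ => 2 * s / R ^ 2) (2 / R ^ 2) s := by
    have := ((hasDerivAt_id s).const_mul 2).div_const (R ^ 2)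
    simpa using this
  exact HasDerivAt.comp (h₂ := TH.win) s (TH.profile_win.der (2 * s / R ^ 2)) h1

lemma grad_capV (hR : 0 < R) (hF : ContDiff ℝ 2 F) (y : E) :
    grad (capV R F) y = TH.win (2 * F y / R ^ 2) • grad F y := by
  refine ext_inner_right ℝ fun v => ?_
  rw [inner_grad, inner_smul_left, inner_grad]
  have h1 : HasFDerivAt F (fderiv ℝ F y) y := (hF.differentiable (by norm_num) y).hasFDerivAt
  have h2 := (hasDerivAt_scal hR (F y)).comp_hasFDerivAt y h1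
  have h3 : fderiv ℝ (capV R F) y = TH.win (2 * F y / R ^ 2) • fderiv ℝ F y := h2.fderiv
  rw [h3]
  simp

lemma hess_capV (hR : 0 < R) (hF : ContDiff ℝ 2 F) (Q : Submodule ℝ E) (y : E) :
    hess (capV R F) Q.starProjection y = TH.win (2 * F y / R ^ 2) * hess F Q.starProjection y
      + deriv TH.win (2 * F y / R ^ 2) * (2 / R ^ 2) * ‖Q.starProjection (grad F y)‖ ^ 2 := by
  have h1 : HasFDerivAt F (fderiv ℝ F y) y := (hF.differentiable (by norm_num) y).hasFDerivAt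
  have h2 := (hasDerivAt_winscal (R := R) (F y)).comp_hasFDerivAt y h1
  have h4 : HasFDerivAt (grad F) (fderiv ℝ (grad F) y) y :=
    ((contDiff_grad hF).differentiable (by norm_num) y).hasFDerivAt
  have h5 : HasFDerivAt (fun y => TH.win (2 * F y / R ^ 2) • grad F y)
      (TH.win (2 * F y / R ^ 2) • fderiv ℝ (grad F) y
        + ((deriv TH.win (2 * F y / R ^ 2) * (2 / R ^ 2)) • fderiv ℝ F y).smulRight (grad F y)) y :=
    h2.smul h4
  unfold hess
  have h0 : grad (capV R F) = fun y => TH.win (2 * F y / R ^ 2) • grad F y :=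
    funext fun y => grad_capV hR hF y
  rw [h0, h5.fderiv, ContinuousLinearMap.add_comp, tr_add, ContinuousLinearMap.smul_comp, tr_smul,
    smulRight_comp', tr_smulRight]
  congr 1
  simp only [ContinuousLinearMap.comp_apply, ContinuousLinearMap.smul_apply, smul_eq_mul]
  rw [← inner_grad, inner_star_self]

lemma vertF_capV (hR : 0 < R) (hF : VertF T F) : VertF T (capV R F) where
  smooth := contDiff_capV hF.smooth
  nonneg := capV_nonneg hF.nonneg
  grad_sq y := by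
    rw [grad_capV hR hF.smooth, norm_smul, Real.norm_eq_abs, abs_of_nonneg (TH.win_nonneg _)]
    have h0 := TH.win_nonneg (2 * F y / R ^ 2)
    have h1 := TH.win_le_one (2 * F y / R ^ 2)
    have h2 : TH.win (2 * F y / R ^ 2) ^ 2 ≤ TH.win (2 * F y / R ^ 2) := by nlinarith
    have hf0 := hF.nonneg y
    have h3 := mul_win_le_psi (s := 2 * F y / R ^ 2) (by positivity)
    have h4 := hF.grad_sq y
    unfold capV
    calc (TH.win (2 * F y / R ^ 2) * ‖grad F y‖) ^ 2
        = TH.win (2 * F y / R ^ 2) ^ 2 * ‖grad F y‖ ^ 2 := by ring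
      _ ≤ TH.win (2 * F y / R ^ 2) * (2 * F y) := by gcongr
      _ = R ^ 2 * (2 * F y / R ^ 2 * TH.win (2 * F y / R ^ 2)) := by field_simp
      _ ≤ R ^ 2 * psi (2 * F y / R ^ 2) := by gcongr
      _ = _ := by ring
  star_grad y := by rw [grad_capV hR hF.smooth, map_smul, hF.star_grad, smul_zero]
  hess_le Q y := by
    rw [hess_capV hR hF.smooth]
    have h0 := TH.win_nonneg (2 * F y / R ^ 2)
    have h1 := TH.win_le_one (2 * F y / R ^ 2)
    have h2 := deriv_win_nonpos (2 * F y / R ^ 2)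
    have h3 := hF.hess_le Q y
    have h4 : 0 ≤ FV.tilt T Q.starProjection := FV.tilt_nonneg Q T
    have h5 : deriv TH.win (2 * F y / R ^ 2) * (2 / R ^ 2) * ‖Q.starProjection (grad F y)‖ ^ 2 ≤ 0 :=
      mul_nonpos_of_nonpos_of_nonneg (mul_nonpos_of_nonpos_of_nonneg h2 (by positivity))
        (by positivity)
    have h6 : TH.win (2 * F y / R ^ 2) * hess F Q.starProjection y
        ≤ TH.win (2 * F y / R ^ 2) * FV.tilt T Q.starProjection :=
      mul_le_mul_of_nonneg_left h3 h0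
    nlinarith

/-! ### window radii -/

/-- `min R₁ (sep S / 3)` -/
noncomputable def wR (S : Finset E) (R₁ : ℝ) : ℝ := by
  classical
  exact if h : S.offDiag.Nonempty then min R₁ (S.offDiag.inf' h (fun p => dist p.1 p.2) / 3)
    else R₁

variable {S : Finset E} {R₁ : ℝ}

lemma wR_le (S : Finset E) (R₁ : ℝ) : wR S R₁ ≤ R₁ := by
  classical
  unfold wR
  split_ifs
  · exact min_le_left _ _
  · exact le_rfl

lemma wR_pos (S : Finset E) (hR₁ : 0 < R₁) : 0 < wR S R₁ := by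
  classical
  unfold wR
  split_ifs with h
  · refine lt_min hR₁ (div_pos ?_ (by norm_num))
    rw [Finset.lt_inf'_iff]
    intro p hp
    rw [Finset.mem_offDiag] at hp
    exact dist_pos.2 hp.2.2
  · exact hR₁

lemma far_wR (S : Finset E) : Far S (wR S R₁) := by
  classical
  intro c hc c' hc' hne
  unfold wR
  have hmem : (c, c') ∈ S.offDiag := Finset.mem_offDiag.2 ⟨hc, hc', hne⟩
  have hn : S.offDiag.Nonempty := ⟨_, hmem⟩
  rw [dif_pos hn]
  have h1 : S.offDiag.inf' hn (fun p => dist p.1 p.2) ≤ dist c c' :=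
    Finset.inf'_le (fun p : E × E => dist p.1 p.2) hmem
  have h2 : min R₁ (S.offDiag.inf' hn (fun p => dist p.1 p.2) / 3)
      ≤ S.offDiag.inf' hn (fun p => dist p.1 p.2) / 3 := min_le_right _ _
  have h3 : 0 < dist c c' := dist_pos.2 hne
  linarith

/-- lower bound of the window radius from separation -/
lemma wR_sq_ge (hR₁ : 0 < R₁) {ρ : ℝ} (hρ : 0 ≤ ρ)
    (hsep : ∀ c ∈ S, ∀ c' ∈ S, c ≠ c' → ρ < dist c c' ^ 2) :
    min (R₁ ^ 2) (ρ / 9) ≤ wR S R₁ ^ 2 := by
  classical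
  unfold wR
  split_ifs with h
  · obtain ⟨p, hp, hmin⟩ := Finset.exists_mem_eq_inf' h (fun p : E × E => dist p.1 p.2)
    rw [hmin]
    rw [Finset.mem_offDiag] at hp
    have h1 := hsep p.1 hp.1 p.2 hp.2.1 hp.2.2
    rcases le_total R₁ (dist p.1 p.2 / 3) with h2 | h2
    · rw [min_eq_left h2]; exact min_le_left _ _
    · rw [min_eq_right h2]
      refine (min_le_right _ _).trans ?_
      rw [div_pow]
      linarith
  · exact min_le_left _ _

/-! ### the comparison of the height functions -/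

variable [MeasurableSpace E] [BorelSpace E]

variable {m : ℕ} {G : Set E} {h : ℝ} {ν : Measure E} {P : E → E →L[ℝ] E}
  {z c : E} {k k' K : ℝ → ℝ}

/-- `F ≤ 2 F₀ + ρ` gives `H_F ≤ 2 H_{F₀} + C₈ ρ` -/
lemma HU_le (hC : CylStat m T G h ν P) (hk : Kern k k' K) {F F₀ : E → ℝ}
    (hF : VertF T F) (hF₀ : VertF T F₀) {s u R' δ ρ C₈ : ℝ} (hs : 0 < s)
    (hR : s * Real.exp u < R') (hG : BallIn T G z R') (hδ : 0 ≤ δ) (hρ : 0 ≤ ρ)
    (hle : ∀ y, F y ≤ 2 * F₀ y + ρ)
    (hC₈ : 2 * ∫ y, k (bsq T z y / (s * Real.exp u) ^ 2) ∂ν ≤ C₈ * (s * Real.exp u) ^ m) :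
    HU m T z k F P ν s δ u ≤ 2 * HU m T z k F₀ P ν s δ u + C₈ * ρ := by
  haveI := hC.fin
  set t := s * Real.exp u with ht
  have ht0 : 0 < t := by positivity
  have hpl := CylStat.plane hC
  unfold HU hgtTh
  rw [← ht]
  have i1 := CylStat.integrable_theta (z := z) hC hk hF.smooth.continuous ht0 hR hG
  have i2 := CylStat.integrable_theta (z := z) hC hk hF₀.smooth.continuous ht0 hR hG
  have i3 : Integrable (fun y => k (bsq T z y / t ^ 2)) ν := by
    have := integrable_kernel (ν := ν) (w := fun _ : E => (1:ℝ)) hk.pk.continuous hk.pk.zero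
      (continuous_bsq T z).aestronglyMeasurable
      (bsq_nonneg T z) aestronglyMeasurable_const (R := t + 1) (C := 1)
      (Eventually.of_forall fun y _ => by simp) ht0 (by linarith)
    simpa using this
  have h1 : ∫ y, k (bsq T z y / t ^ 2) * (F y * theta T P z y) ∂ν
      ≤ 2 * ∫ y, k (bsq T z y / t ^ 2) * (F₀ y * theta T P z y) ∂ν
        + ρ * ∫ y, k (bsq T z y / t ^ 2) ∂ν := by
    rw [← integral_const_mul, ← integral_const_mul, ← integral_add (i2.const_mul _) (i3.const_mul _)]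
    refine integral_mono_ae i1 ((i2.const_mul _).add (i3.const_mul _)) ?_
    filter_upwards [hpl.theta_mem (T := T) (z := z)] with y hth
    show k (bsq T z y / t ^ 2) * (F y * theta T P z y)
      ≤ 2 * (k (bsq T z y / t ^ 2) * (F₀ y * theta T P z y)) + ρ * k (bsq T z y / t ^ 2)
    have hk0 := hk.nonneg (bsq T z y / t ^ 2)
    have h3 : F y * theta T P z y ≤ 2 * (F₀ y * theta T P z y) + ρ := by
      have h4 := mul_le_mul_of_nonneg_right (hle y) hth.1
      have h5 : ρ * theta T P z y ≤ ρ := by nlinarith [hth.2]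
      linarith
    have h6 := mul_le_mul_of_nonneg_left h3 hk0
    linarith
  have hz : 0 < t ^ (-(m : ℤ)) := zpow_pos ht0 _
  have h2 := mul_le_mul_of_nonneg_left h1 hz.le
  have h3 : t ^ (-(m : ℤ)) * (2 * ∫ y, k (bsq T z y / t ^ 2) ∂ν) ≤ C₈ := by
    have h4 := mul_le_mul_of_nonneg_left hC₈ hz.le
    have e1 : t ^ (-(m : ℤ)) * (C₈ * t ^ m) = C₈ := by
      rw [zpow_neg, zpow_natCast]; field_simp
    rwa [e1] at h4
  have h5 := mul_le_mul_of_nonneg_right h3 hρ
  linarith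

/-- **the gap energy** -/
lemma gap (hC : CylStat m T G h ν P) (hk : Kern k k' K) (hK1 : ∀ s, 0 ≤ s → K s ≤ 1) {t : ℝ}
    (ht : 0 < t) (hG : BallIn T G z t) (hS : S.Nonempty) (hR : 0 < R) (hFar : Far S R)
    (hT : ∀ c ∈ S, c ∈ Tᗮ) :
    tiltK m T z K P ν t - hessK m T z K (capF T S R) P ν t
      ≤ (1 + 2 * TH.winC) * (t ^ (2 - (m : ℤ)) *
        ∫ y in {y | bsq T z y < t ^ 2 ∧ ∀ c ∈ S, R / 2 < ‖hgt T c y‖}, ODE.tilt T P y ∂ν) := by
  haveI := hC.fin
  have hpl := CylStat.plane hC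
  have i1 := integrable_K (z := z) hC hk ht (aesm_tilt (T := T) hpl.meas) hpl.abs_tilt_le
  have i2 := integrable_hess (z := z) hC hk (contDiff_capF T S R) ht hG
  unfold tiltK hessK
  rw [← mul_sub, ← integral_sub i1 i2, mul_left_comm]
  refine mul_le_mul_of_nonneg_left ?_ (zpow_nonneg ht.le _)
  have hmeas : MeasurableSet {y | bsq T z y < t ^ 2 ∧ ∀ c ∈ S, R / 2 < ‖hgt T c y‖} := by
    have h1 : {y | bsq T z y < t ^ 2 ∧ ∀ c ∈ S, R / 2 < ‖hgt T c y‖}
        = {y | bsq T z y < t ^ 2} ∩ ⋂ c ∈ S, {y | R / 2 < ‖hgt T c y‖} := by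
      ext y; simp
    rw [h1]
    refine (isOpen_lt (continuous_bsq T z) continuous_const).measurableSet.inter ?_
    refine Finset.measurableSet_biInter _ fun c _ => ?_
    exact (isOpen_lt continuous_const (contDiff_hgt (n := 0) T c).continuous.norm).measurableSet
  rw [← integral_indicator hmeas, ← integral_const_mul]
  have htl := TH.integrable_tilt hC
  refine integral_mono_ae (i1.sub i2) ((htl.indicator hmeas).const_mul _) ?_
  filter_upwards [hC.proj] with y hy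
  obtain ⟨Q, -, hQ⟩ := hy
  have ht0 : 0 ≤ FV.tilt T Q.starProjection := FV.tilt_nonneg Q T
  have htil : ODE.tilt T P y = FV.tilt T Q.starProjection := by rw [← TH.tilt_agree, hQ]
  have hW := TH.winC_nonneg
  show K (bsq T z y / t ^ 2) * ODE.tilt T P y - K (bsq T z y / t ^ 2) * hess (capF T S R) (P y) y
    ≤ (1 + 2 * TH.winC) * ({y | bsq T z y < t ^ 2 ∧ ∀ c ∈ S, R / 2 < ‖hgt T c y‖}.indicator
      (fun y => ODE.tilt T P y) y)
  rw [hQ, htil, ← mul_sub]
  have hK0 := hk.K_nonneg (bsq T z y / t ^ 2)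
  have hK1' := hK1 (bsq T z y / t ^ 2) (div_nonneg (bsq_nonneg T z y) (by positivity))
  by_cases hmem : y ∈ {y | bsq T z y < t ^ 2 ∧ ∀ c ∈ S, R / 2 < ‖hgt T c y‖}
  · rw [indicator_of_mem hmem, htil]
    have h1 := hess_capF_ge hS hR hFar hT Q y
    have h2 : FV.tilt T Q.starProjection - hess (capF T S R) Q.starProjection y
        ≤ (1 + 2 * TH.winC) * FV.tilt T Q.starProjection := by linarith
    have h3 := hess_capF_le hS hR hFar hT Q y
    calc K (bsq T z y / t ^ 2) * (FV.tilt T Q.starProjection - hess (capF T S R) Q.starProjection y)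
        ≤ 1 * (FV.tilt T Q.starProjection - hess (capF T S R) Q.starProjection y) :=
          mul_le_mul_of_nonneg_right hK1' (by linarith)
      _ ≤ _ := by linarith
  · rw [indicator_of_notMem hmem, mul_zero]
    simp only [mem_setOf_eq, not_and, not_forall, not_lt] at hmem
    by_cases hlt : bsq T z y < t ^ 2
    · obtain ⟨c, hc, hle⟩ := hmem hlt
      rw [hess_capF_win hS hR hFar hT _ hc hle]
      simp
    · have h4 : K (bsq T z y / t ^ 2) = 0 := by
        refine hk.pK.zero _ ?_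
        rw [one_le_div (by positivity)]
        exact not_lt.1 hlt
      rw [h4]; simp

/-! ### the data -/

/-- the function of the bottom representatives: capped soft staircase -/
noncomputable def F₀ (T : Submodule ℝ E) (S₀ : Finset E) (β R₁ : ℝ) : E → ℝ :=
  capV (2 * R₁) (stair T β (fun i : S₀ => (i : E)))

omit [MeasurableSpace E] [BorelSpace E] in
lemma vertF_F₀ {S₀ : Finset E} (hne : S₀.Nonempty) {β : ℝ} (hβ : 0 < β) (hR₁ : 0 < R₁)
    (hT : ∀ c ∈ S₀, c ∈ Tᗮ) : VertF T (F₀ T S₀ β R₁) := by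
  haveI : Nonempty S₀ := hne.to_subtype
  exact vertF_capV (by positivity) (vertF_stair hβ fun i => hT i i.2)

omit [MeasurableSpace E] [BorelSpace E] in
lemma F₀_le {S₀ : Finset E} (hne : S₀.Nonempty) {β : ℝ} (hβ : 0 < β) (hR₁ : 0 < R₁) (y : E) :
    F₀ T S₀ β R₁ y ≤ 2 * R₁ ^ 2 := by
  refine capV_le (R := 2 * R₁) y |>.trans (le_of_eq ?_)
  ring

omit [MeasurableSpace E] [BorelSpace E] in
/-- `F₀ ≤ |q y - c|²/2 + log |S₀| / β` -/
lemma F₀_le_hsq {S₀ : Finset E} (hne : S₀.Nonempty) {β : ℝ} (hβ : 0 < β) (hR₁ : 0 < R₁) {c : E}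
    (hc : c ∈ S₀) (y : E) : F₀ T S₀ β R₁ y ≤ hsq T c y + Real.log S₀.card / β := by
  haveI : Nonempty S₀ := hne.to_subtype
  refine (capV_le_self (by positivity) (stair_nonneg hβ) y).trans ?_
  have := stair_le (T := T) (c := fun i : S₀ => (i : E)) hβ ⟨c, hc⟩ y
  simpa using this

omit [MeasurableSpace E] [BorelSpace E] in
lemma capF_le_F₀ {S₀ : Finset E} (hne : S₀.Nonempty) {β : ℝ} (hβ : 0 < β) (hR₁ : 0 < R₁)
    (hS : S.Nonempty) {ρ : ℝ} (hρ : 0 ≤ ρ) (hcov : NG.Cov S S₀ ρ) (y : E) :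
    capF T S (wR S R₁) y ≤ 2 * F₀ T S₀ β R₁ y + ρ := by
  haveI : Nonempty S₀ := hne.to_subtype
  have hw := wR_pos S hR₁
  have hF := far_wR (R₁ := R₁) S
  have h1 : (capF T S (wR S R₁) y - ρ) / 2 ≤ stair T β (fun i : S₀ => (i : E)) y := by
    refine le_stair hβ fun i => ?_
    have := capF_le_of_cov (T := T) hS hw hF hcov y i i.2
    linarith
  have h2 : capF T S (wR S R₁) y ≤ R₁ ^ 2 / 2 := by
    refine (capF_le_sq hS hw hF y).trans ?_
    have := wR_le S R₁
    gcongr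
  have h3 := min_le_capV (R := 2 * R₁) (F := stair T β (fun i : S₀ => (i : E))) (by positivity)
    (stair_nonneg hβ) y
  unfold F₀
  rcases le_total (stair T β (fun i : S₀ => (i : E)) y) ((2 * R₁) ^ 2 / 8) with h | h
  · rw [min_eq_left h] at h3
    linarith
  · rw [min_eq_right h] at h3
    nlinarith

/-- **The data of the path lemma at one centre.** -/
theorem ngData (hC : CylStat m T G h ν P) (hk : Kern k k' K) (hk0 : ∀ s, s ≤ 1 / 4 → k s = 0)
    (cQ : ℝ) {I : ℕ} {η κ M C₁ ε B₀ C₈ s R' δ β : ℝ} {S₀ : Finset E}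
    (hs : 0 < s) (hη : 0 ≤ η) (hR : s * Real.exp (I * η) < R') (hG : BallIn T G z R')
    (hg : 0 < tiltK m T z K P ν s) (hM : (m : ℝ) - 2 ≤ M) (hC₁ : (m : ℝ) - 2 ≤ C₁)
    (hC₁0 : 0 ≤ C₁) (hε : 0 ≤ ε) (hδ : 0 < δ) (hβ : 0 < β) (hR₁ : 0 < R₁)
    (hcap : 16 * m * R₁ ^ 2 ≤ ε * s ^ 2) (hne : S₀.Nonempty) (hT : ∀ c ∈ S₀, c ∈ Tᗮ)
    (hB : ∫ u in (0:ℝ)..(I * η), NG.Yp (aU m T z K ν cQ s) (gU m T z K P ν s) u ≤ B₀)
    (hinit : HU m T z k (F₀ T S₀ β R₁) P ν s δ 0
      ≤ κ * NG.Am (aU m T z K ν cQ s) (gU m T z K P ν s) 0)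
    (hC₈ : ∀ t, s ≤ t → t ≤ s * Real.exp (I * η) →
      2 * ∫ y, k (bsq T z y / t ^ 2) ∂ν ≤ C₈ * t ^ m) :
    NG.NGData I η κ M C₁ ε B₀ C₈ (aU m T z K ν cQ s) (gU m T z K P ν s) (bU m T z k P ν s)
      (g₁U m T z k K P ν s) S₀ (HU m T z k (F₀ T S₀ β R₁) P ν s δ)
      (H₁U m T z k K (F₀ T S₀ β R₁) P ν s)
      (fun S => HU m T z k (capF T S (wR S R₁)) P ν s δ)
      (fun S => H₁U m T z k K (capF T S (wR S R₁)) P ν s)
      (fun S => gSU m T z K (capF T S (wR S R₁)) P ν s) := by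
  have hsE : ∀ u ∈ Icc (0:ℝ) (I * η), s ≤ s * Real.exp u := fun u hu => by
    have := Real.one_le_exp hu.1
    nlinarith
  have hcapu : ∀ (F : E → ℝ), (∀ y, F y ≤ 2 * R₁ ^ 2) → ∀ u ∈ Icc (0:ℝ) (I * η), ∀ᵐ y ∂ν,
      bsq T z y < (s * Real.exp u) ^ 2 → 8 * m * F y ≤ ε * (s * Real.exp u) ^ 2 := by
    intro F hF u hu
    refine Eventually.of_forall fun y _ => ?_
    have h1 := hsE u hu
    have h2 : s ^ 2 ≤ (s * Real.exp u) ^ 2 := by gcongr
    have hm0 : (0:ℝ) ≤ m := Nat.cast_nonneg m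
    calc 8 * (m:ℝ) * F y ≤ 8 * m * (2 * R₁ ^ 2) := by gcongr; exact hF y
      _ = 16 * m * R₁ ^ 2 := by ring
      _ ≤ ε * s ^ 2 := hcap
      _ ≤ _ := by gcongr
  have hV₀ : VertF T (F₀ T S₀ β R₁) := vertF_F₀ hne hβ hR₁ hT
  have hVS : ∀ S ⊆ S₀, S.Nonempty → VertF T (capF T S (wR S R₁)) := fun S hS hSne =>
    vertF_capF hSne (wR_pos S hR₁) (far_wR S) fun c hc => hT c (hS hc)
  have hp₀ := hpath (m := m) (z := z) hC hk hk0 hV₀ hs hR hG hδ hC₁ hε
    (hcapu _ (F₀_le hne hβ hR₁))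
  refine ⟨?_, hB, hp₀.dH, ?_, hinit, ?_, ?_⟩
  · exact epath hC hk cQ hs hR.le hG (by simpa using hg) hM
  · intro u hu
    have h1 := hp₀.err2 u hu
    have h2 := hp₀.le u hu
    linarith
  · intro S hS hSne
    refine hpath (z := z) hC hk hk0 (hVS S hS hSne) hs hR hG hδ hC₁ hε (hcapu _ fun y => ?_)
    refine (capF_le_sq hSne (wR_pos S hR₁) (far_wR S) y).trans ?_
    have h1 := wR_le S R₁
    have h2 := wR_pos S hR₁
    nlinarith
  · intro S hS hSne ρ hρ hcov u hu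
    have hu2 : s * Real.exp u ≤ s * Real.exp (I * η) := by gcongr; exact hu.2
    exact HU_le hC hk (hVS S hS hSne) hV₀ hs (hu2.trans_lt hR) hG hδ.le hρ
      (capF_le_F₀ hne hβ hR₁ hSne hρ hcov) (hC₈ _ (hsE u hu) hu2)

end Vale.Agent.P214.CAPF
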