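import Vale.Agent.P214.CAPF.Data
import Vale.Agent.P214.NG.Path

/-!
# P214, block CAPF (5): events and the initial bound

* `height_after`: after the grid time `i` the height function of a set `S` which covers `S₀` at
  squared distance `rad2 j i` satisfies `H_S(u) ≤ K₃ (κ + 2u)^{e j} A(u)`,
* `exists_event`: if `NoEvent` fails there is an explicit event,
* `init_le`: the initial bound in terms of the distances to `S₀`.
-/

open Set Filter Topology MeasureTheory Metric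
open scoped RealInnerProductSpace

set_option linter.all false

namespace Vale.Agent.P214.CAPF

open Vale.Agent.P214.FV Vale.Agent.P214.ODE Vale.Agent.P214.NGP

section abs

variable {X : Type*} [MetricSpace X] {I : ℕ} {h κ M C₁ ε B₀ C₈ : ℝ} {a g b g₁ : ℝ → ℝ}
  {S₀ : Finset X} {H₀ H₀' : ℝ → ℝ} {H H₁ gS : Finset X → ℝ → ℝ}

/-- height bound at all later times -/
theorem height_after (hD : NG.NGData I h κ M C₁ ε B₀ C₈ a g b g₁ S₀ H₀ H₀' H H₁ gS)
    (h0 : 0 ≤ h) (hM : 0 ≤ M) (hC₁ : 0 ≤ C₁) (hε0 : 0 ≤ ε) (hε1 : ε ≤ 1) (hB0 : 0 ≤ B₀)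
    (hC₈ : 0 ≤ C₈) (hκ : 1 ≤ κ) {e : ℕ → ℕ} {j i : ℕ} (hej : 1 ≤ e j) (hi : i ≤ I)
    {S : Finset X} (hS : S ⊆ S₀) (hSne : S.Nonempty)
    (hcov : NG.Cov S S₀ (NG.rad2 e κ h a g j i)) {u : ℝ} (hu : u ∈ Icc (i * h : ℝ) (I * h)) :
    H S u ≤ NG.K3 M C₁ B₀ C₈ * (κ + 2 * u) ^ e j * NG.Am a g u := by
  have hi0 : (0:ℝ) ≤ i * h := by positivity
  have hu0 : u ∈ Icc (0:ℝ) (I * h) := ⟨hi0.trans hu.1, hu.2⟩
  have h1 := hD.comp S hS hSne _ (NG.rad2_nonneg hD.epath h0 hκ e j i) hcov _ hu0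
  have h2 := NG.trivial_bound hD.epath hM hC₁ hε0 hε1 hB0 hD.budget hD.dH₀ hD.H₀err hκ hD.init hu0
  have hA := hD.epath.Apos hu0
  have hL : 1 ≤ κ + 2 * u := by linarith [hu0.1]
  have h4 : κ + 2 * u ≤ (κ + 2 * u) ^ e j := le_self_pow₀ hL (by omega)
  have hK2 : 0 ≤ NG.K2 M C₁ B₀ := by unfold NG.K2; positivity
  have h5 : H₀ u ≤ NG.K2 M C₁ B₀ * (κ + 2 * u) ^ e j * NG.Am a g u := by
    refine h2.trans ?_
    gcongr
  have h3 : NG.Abar a g h i ≤ Real.exp (NG.C2 M C₁ * B₀) * NG.Am a g u := by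
    unfold NG.Abar
    refine Finset.sup'_le _ _ fun k hk => ?_
    rw [Finset.mem_range] at hk
    refine NG.A_quasi' hD.epath hM hC₁ hD.budget (by positivity) ?_ hu.2
    refine le_trans ?_ hu.1
    exact mul_le_mul_of_nonneg_right (Nat.cast_le.2 (by omega)) h0
  have hLi : 1 ≤ NG.Lam κ h i := NG.one_le_Lam h0 hκ i
  have hLle : NG.Lam κ h i ≤ κ + 2 * u := by
    unfold NG.Lam; linarith [hu.1]
  have h6 : C₈ * NG.rad2 e κ h a g j i
      ≤ C₈ * Real.exp (NG.C2 M C₁ * B₀) * (κ + 2 * u) ^ e j * NG.Am a g u := by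
    unfold NG.rad2
    calc C₈ * (NG.Lam κ h i ^ e j * NG.Abar a g h i)
        ≤ C₈ * ((κ + 2 * u) ^ e j * (Real.exp (NG.C2 M C₁ * B₀) * NG.Am a g u)) := by
          gcongr
          exact (NG.Abar_pos hD.epath h0 i).le
      _ = _ := by ring
  unfold NG.K3
  linarith

end abs

variable {E : Type*} [NormedAddCommGroup E] [InnerProductSpace ℝ E] [FiniteDimensional ℝ E]
  [MeasurableSpace E] [BorelSpace E]

variable {T : Submodule ℝ E} {m : ℕ} {G : Set E} {h : ℝ} {ν : Measure E} {P : E → E →L[ℝ] E}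
  {z c : E} {k k' K : ℝ → ℝ}

/-- the points over `ball z t` outside the half windows of `S` -/
def gapSet (T : Submodule ℝ E) (z : E) (S : Finset E) (R t : ℝ) : Set E :=
  {y | bsq T z y < t ^ 2 ∧ ∀ c ∈ S, R / 2 < ‖hgt T c y‖}

/-- **If `NoEvent` fails there is an explicit event.** -/
theorem exists_event (hC : CylStat m T G h ν P) (hk : Kern k k' K) (hK1 : ∀ s, 0 ≤ s → K s ≤ 1)
    {cQ : ℝ} {I M₀ : ℕ} {η κ M C₁ ε B₀ C₈ s R' R₁ δ : ℝ} {S₀ : Finset E}
    {H₀ H₀' : ℝ → ℝ} {H₁ : Finset E → ℝ → ℝ} {e : ℕ → ℕ} {θ : ℕ → ℝ}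
    (hs : 0 < s) (hη : 0 ≤ η) (hR : s * Real.exp (I * η) < R') (hG : BallIn T G z R')
    (hR₁ : 0 < R₁) (hT : ∀ c ∈ S₀, c ∈ Tᗮ)
    (hM : 0 ≤ M) (hC₁ : 0 ≤ C₁) (hε0 : 0 ≤ ε) (hε1 : ε ≤ 1) (hB0 : 0 ≤ B₀) (hC₈ : 0 ≤ C₈)
    (hκ : 1 ≤ κ) (he0 : 1 ≤ e 0) (hem : Monotone e)
    (hD : NG.NGData I η κ M C₁ ε B₀ C₈ (aU m T z K ν cQ s) (gU m T z K P ν s) (bU m T z k P ν s)
      (g₁U m T z k K P ν s) S₀ H₀ H₀'
      (fun S => HU m T z k (capF T S (wR S R₁)) P ν s δ) H₁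
      (fun S => gSU m T z K (capF T S (wR S R₁)) P ν s))
    (hN : ¬ NG.NoEvent I η κ e M₀ (aU m T z K ν cQ s) (gU m T z K P ν s) S₀
      (fun S => gSU m T z K (capF T S (wR S R₁)) P ν s) θ) :
    ∃ i < I, ∃ j < M₀, ∃ S ⊆ S₀, S.Nonempty ∧
      NG.Sep S (NG.rad2 e κ η (aU m T z K ν cQ s) (gU m T z K P ν s) (j + 1) i) ∧
      NG.Cov S S₀ (NG.rad2 e κ η (aU m T z K ν cQ s) (gU m T z K P ν s) j i) ∧
      NG.Ag (aU m T z K ν cQ s) (gU m T z K P ν s) η (i + 1)
        < 2 * NG.Ag (aU m T z K ν cQ s) (gU m T z K P ν s) η i ∧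
      min (R₁ ^ 2) (NG.rad2 e κ η (aU m T z K ν cQ s) (gU m T z K P ν s) (j + 1) i / 9)
        ≤ wR S R₁ ^ 2 ∧
      (∀ u ∈ Icc (i * η : ℝ) (I * η), HU m T z k (capF T S (wR S R₁)) P ν s δ u
        ≤ NG.K3 M C₁ B₀ C₈ * (κ + 2 * u) ^ e j
          * NG.Am (aU m T z K ν cQ s) (gU m T z K P ν s) u) ∧
      ∃ u ∈ Icc (i * η : ℝ) ((i + 1 : ℕ) * η),
        θ i * NG.Am (aU m T z K ν cQ s) (gU m T z K P ν s) u
          < (1 + 2 * TH.winC) * ((s * Real.exp u) ^ (2 - (m : ℤ)) *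
            ∫ y in gapSet T z S (wR S R₁) (s * Real.exp u), ODE.tilt T P y ∂ν) := by
  unfold NG.NoEvent at hN
  push Not at hN
  obtain ⟨i, hi, j, hj, S, hS, hSne, hsep, hcov, hjump, u, hu, hθ⟩ := hN
  refine ⟨i, hi, j, hj, S, hS, hSne, hsep, hcov, hjump, ?_, ?_, u, hu, ?_⟩
  · exact wR_sq_ge hR₁ (NG.rad2_nonneg hD.epath hη hκ e (j + 1) i) hsep
  · intro v hv
    exact height_after hD hη hM hC₁ hε0 hε1 hB0 hC₈ hκ (he0.trans (hem (Nat.zero_le j))) hi.le
      hS hSne hcov hv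
  · have hu2 : u ≤ I * η := by
      refine hu.2.trans ?_
      exact mul_le_mul_of_nonneg_right (Nat.cast_le.2 (by omega)) hη
    have ht : s * Real.exp u ≤ R' := by
      refine le_trans ?_ hR.le
      gcongr
    have h1 := gap (z := z) (R := wR S R₁) hC hk hK1 (by positivity : 0 < s * Real.exp u)
      (fun x hx hx2 => hG x hx (hx2.trans ht)) hSne (wR_pos S hR₁) (far_wR S)
      fun c hc => hT c (hS hc)
    refine lt_of_lt_of_le ?_ h1
    exact hθ

/-- **The initial bound**: `H_{F₀}(0) ≤ Ck s^{-m} ∫_{B_s(z)} dist²(q y, S₀) + small`. -/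
theorem init_le (hC : CylStat m T G h ν P) (hk : Kern k k' K) {Ck : ℝ}
    (hCk : ∀ s, 0 ≤ s → k s ≤ Ck) {S₀ : Finset E} (hne : S₀.Nonempty) {s R' R₁ δ β : ℝ}
    (hs : 0 < s) (hβ : 0 < β) (hR₁ : 0 < R₁) (hT : ∀ c ∈ S₀, c ∈ Tᗮ) (hR : s < R')
    (hG : BallIn T G z R') :
    HU m T z k (F₀ T S₀ β R₁) P ν s δ 0 ≤
      Ck * s ^ (-(m : ℤ)) * (∫ y in QP.bset T z s, infDist (co T y) S₀ ^ 2 ∂ν)
        + 2 * Ck * (Real.log S₀.card / β) * s ^ (-(m : ℤ)) * ν.real (QP.bset T z s) + δ := by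
  haveI := hC.fin
  have hpl := CylStat.plane hC
  have hV := vertF_F₀ hne hβ hR₁ hT
  unfold HU hgtTh
  rw [Real.exp_zero, mul_one]
  have hCk0 : 0 ≤ Ck := (hk.nonneg 0).trans (hCk 0 le_rfl)
  have hlog : 0 ≤ Real.log S₀.card / β := by
    refine div_nonneg (Real.log_nonneg ?_) hβ.le
    exact_mod_cast Finset.card_pos.2 hne
  have hbm := QP.measurableSet_bset T z s
  -- integrability of the squared distance over the ball
  have hinf : Continuous fun y : E => infDist (co T y) (S₀ : Set E) ^ 2 :=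
    ((continuous_infDist_pt _).comp (co T).continuous).pow 2
  obtain ⟨C, hCb⟩ := CylStat.ball_bound hC hinf hs (fun x hx hx2 => hG x hx (hx2.trans hR.le))
  have i0 : IntegrableOn (fun y => infDist (co T y) (S₀ : Set E) ^ 2) (QP.bset T z s) ν := by
    refine Measure.integrableOn_of_bounded (M := C) (measure_ne_top ν _)
      hinf.aestronglyMeasurable ?_
    rw [ae_restrict_iff' hbm]
    filter_upwards [hCb] with y hy hmem
    exact hy hmem
  have i1 : IntegrableOn (fun y => Ck / 2 * infDist (co T y) (S₀ : Set E) ^ 2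
        + Ck * (Real.log S₀.card / β)) (QP.bset T z s) ν :=
    Integrable.add (Integrable.const_mul i0 (Ck / 2))
    ((integrable_const (Ck * (Real.log S₀.card / β))).integrableOn (s := QP.bset T z s))
  have key : ∫ y, k (bsq T z y / s ^ 2) * (F₀ T S₀ β R₁ y * theta T P z y) ∂ν
      ≤ ∫ y in QP.bset T z s, (Ck / 2 * infDist (co T y) (S₀ : Set E) ^ 2
        + Ck * (Real.log S₀.card / β)) ∂ν := by
    rw [← integral_indicator hbm]
    refine integral_mono_of_nonneg ?_ (i1.integrable_indicator hbm) ?_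
    · filter_upwards [hpl.theta_mem (T := T) (z := z)] with y hy
      exact mul_nonneg (hk.nonneg _) (mul_nonneg (hV.nonneg y) hy.1)
    · filter_upwards [hpl.theta_mem (T := T) (z := z)] with y hth
      by_cases hmem : y ∈ QP.bset T z s
      · rw [indicator_of_mem hmem]
        have h3 : 0 ≤ bsq T z y / s ^ 2 := div_nonneg (bsq_nonneg T z y) (by positivity)
        -- the nearest height
        obtain ⟨c, hc, hcd⟩ := (S₀.finite_toSet.isClosed (X := E)).exists_infDist_eq_dist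
          (by exact_mod_cast hne) (co T y)
        have h4 : F₀ T S₀ β R₁ y ≤ infDist (co T y) (S₀ : Set E) ^ 2 / 2
            + Real.log S₀.card / β := by
          have h5 := F₀_le_hsq (T := T) hne hβ hR₁ (by exact_mod_cast hc : c ∈ S₀) y
          have h6 : hsq T c y = infDist (co T y) (S₀ : Set E) ^ 2 / 2 := by
            rw [hcd, dist_eq_norm]; rfl
          rwa [h6] at h5
        have h7 : F₀ T S₀ β R₁ y * theta T P z y ≤ infDist (co T y) (S₀ : Set E) ^ 2 / 2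
            + Real.log S₀.card / β := by
          calc F₀ T S₀ β R₁ y * theta T P z y ≤ F₀ T S₀ β R₁ y * 1 :=
                mul_le_mul_of_nonneg_left hth.2 (hV.nonneg y)
            _ ≤ _ := by linarith
        have h8 : 0 ≤ F₀ T S₀ β R₁ y * theta T P z y := mul_nonneg (hV.nonneg y) hth.1
        calc k (bsq T z y / s ^ 2) * (F₀ T S₀ β R₁ y * theta T P z y)
            ≤ Ck * (infDist (co T y) (S₀ : Set E) ^ 2 / 2 + Real.log S₀.card / β) :=
              mul_le_mul (hCk _ h3) h7 h8 hCk0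
          _ = _ := by ring
      · rw [indicator_of_notMem hmem]
        have h4 : k (bsq T z y / s ^ 2) = 0 := by
          refine hk.pk.zero _ ?_
          rw [one_le_div (by positivity)]
          exact not_lt.1 hmem
        rw [h4]; simp
  have hz : 0 ≤ 2 * s ^ (-(m : ℤ)) := by
    have := zpow_nonneg hs.le (-(m : ℤ))
    linarith
  have h1 := mul_le_mul_of_nonneg_left key hz
  have e1 : ∫ y in QP.bset T z s, (Ck / 2 * infDist (co T y) (S₀ : Set E) ^ 2
        + Ck * (Real.log S₀.card / β)) ∂ν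
      = Ck / 2 * (∫ y in QP.bset T z s, infDist (co T y) (S₀ : Set E) ^ 2 ∂ν)
        + Ck * (Real.log S₀.card / β) * ν.real (QP.bset T z s) := by
    rw [integral_add (i0.const_mul _)
      ((integrable_const (Ck * (Real.log S₀.card / β))).integrableOn (s := QP.bset T z s)),
      integral_const_mul, setIntegral_const]
    simp only [smul_eq_mul]
    ring
  rw [e1] at h1
  linarith

end Vale.Agent.P214.CAPF
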