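import Vale.Agent.P214.CAPF.Cap

/-!
# P214, block CAPF (2): the capped height function of a finite set of heights
-/

open Set Filter Topology MeasureTheory Metric
open scoped RealInnerProductSpace

set_option linter.all false

namespace Vale.Agent.P214.CAPF

open Vale.Agent.P214.FV Vale.Agent.P214.ODE Vale.Agent.P214.NGP

variable {E : Type*} [NormedAddCommGroup E] [InnerProductSpace ℝ E] [FiniteDimensional ℝ E]

/-- the capped height function of the finite set `S` of heights -/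
noncomputable def capF (T : Submodule ℝ E) (S : Finset E) (R : ℝ) (y : E) : ℝ :=
  ∑ c ∈ S, caph T c R y - ((S.card : ℝ) - 1) * (R ^ 2 / 2 * psi 1)

/-- the heights have mutual distances `> 2 R` -/
def Far (S : Finset E) (R : ℝ) : Prop := ∀ c ∈ S, ∀ c' ∈ S, c ≠ c' → 2 * R < dist c c'

variable {T : Submodule ℝ E} {S : Finset E} {R : ℝ}

lemma contDiff_capF (T : Submodule ℝ E) (S : Finset E) (R : ℝ) : ContDiff ℝ 2 (capF T S R) :=
  (ContDiff.sum fun c _ => contDiff_caph T c R).sub contDiff_const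

lemma norm_hgt_add_ge (T : Submodule ℝ E) (c c' y : E) :
    dist c c' ≤ ‖hgt T c y‖ + ‖hgt T c' y‖ := by
  have h : c - c' = -(hgt T c y) + hgt T c' y := by
    unfold hgt; abel
  rw [dist_eq_norm, h]
  calc ‖-(hgt T c y) + hgt T c' y‖ ≤ ‖-(hgt T c y)‖ + ‖hgt T c' y‖ := norm_add_le _ _
    _ = _ := by rw [norm_neg]

/-- **Near every point `capF` is the capped half square of one (the nearest) height.** -/
lemma exists_local (hS : S.Nonempty) (hR : 0 < R) (hF : Far S R) (y : E) :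
    ∃ c ∈ S, (∀ c' ∈ S, ‖hgt T c y‖ ≤ ‖hgt T c' y‖) ∧ capF T S R =ᶠ[𝓝 y] caph T c R := by
  classical
  obtain ⟨c, hc, hmin⟩ := S.exists_min_image (fun c => ‖hgt T c y‖) hS
  refine ⟨c, hc, hmin, ?_⟩
  have hfar : ∀ c' ∈ S, c' ≠ c → R < ‖hgt T c' y‖ := by
    intro c' hc' hne
    have h1 := hF c' hc' c hc hne
    have h2 := norm_hgt_add_ge T c' c y
    have h3 := hmin c' hc'
    linarith
  have hev : ∀ᶠ z in 𝓝 y, ∀ c' ∈ S, c' ≠ c → R ≤ ‖hgt T c' z‖ := by
    rw [Filter.eventually_all_finset]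
    intro c' hc'
    by_cases hne : c' = c
    · exact Eventually.of_forall fun z h => absurd hne h
    · have hcont : Continuous fun z => ‖hgt T c' z‖ := (contDiff_hgt (n := 0) T c').continuous.norm
      filter_upwards [hcont.continuousAt.eventually (lt_mem_nhds (hfar c' hc' hne))] with z hz _
      exact hz.le
  filter_upwards [hev] with z hz
  unfold capF
  rw [← Finset.add_sum_erase S _ hc]
  have h1 : ∑ x ∈ S.erase c, caph T x R z = ((S.card : ℝ) - 1) * (R ^ 2 / 2 * psi 1) := by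
    rw [Finset.sum_congr rfl (g := fun _ => R ^ 2 / 2 * psi 1)]
    · rw [Finset.sum_const, Finset.card_erase_of_mem hc, nsmul_eq_mul,
        Nat.cast_pred (Finset.card_pos.2 hS)]
    · intro x hx
      rw [Finset.mem_erase] at hx
      exact caph_far hR (hz x hx.2 hx.1)
  rw [h1]; ring

section

variable (hS : S.Nonempty) (hR : 0 < R) (hF : Far S R)

include hS hR hF

lemma capF_nonneg (y : E) : 0 ≤ capF T S R y := by
  obtain ⟨c, -, -, h⟩ := exists_local (T := T) hS hR hF y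
  rw [h.self_of_nhds]; exact caph_nonneg y

lemma capF_le_sq (y : E) : capF T S R y ≤ R ^ 2 / 2 := by
  obtain ⟨c, -, -, h⟩ := exists_local (T := T) hS hR hF y
  rw [h.self_of_nhds]
  refine (caph_le_cap y).trans ?_
  have := psi_one_le
  nlinarith [sq_nonneg R]

lemma capF_le_hsq {c : E} (hc : c ∈ S) (y : E) : capF T S R y ≤ hsq T c y := by
  obtain ⟨c₀, -, hmin, h⟩ := exists_local (T := T) hS hR hF y
  rw [h.self_of_nhds]
  refine (caph_le_hsq hR y).trans ?_
  unfold hsq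
  have := hmin c hc
  gcongr

/-- lower bound outside the half windows -/
lemma le_capF (y : E) : ∃ c ∈ S, min (hsq T c y) (R ^ 2 / 8) ≤ capF T S R y := by
  obtain ⟨c₀, hc₀, hmin, h⟩ := exists_local (T := T) hS hR hF y
  refine ⟨c₀, hc₀, ?_⟩
  rw [h.self_of_nhds]
  exact min_le_caph hR y

omit hS hR hF in
lemma grad_congr {F F' : E → ℝ} {y : E} (h : F =ᶠ[𝓝 y] F') : grad F =ᶠ[𝓝 y] grad F' := by
  filter_upwards [h.eventuallyEq_nhds] with z hz
  unfold grad
  rw [hz.fderiv_eq]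

omit hS hR hF in
lemma hess_congr {F F' : E → ℝ} {y : E} (h : F =ᶠ[𝓝 y] F') (B : E →L[ℝ] E) :
    hess F B y = hess F' B y := by
  unfold hess
  rw [(grad_congr h).fderiv_eq]

lemma norm_grad_capF_le (hT : ∀ c ∈ S, c ∈ Tᗮ) (y : E) :
    ‖grad (capF T S R) y‖ ^ 2 ≤ 2 * capF T S R y := by
  obtain ⟨c, hc, -, h⟩ := exists_local (T := T) hS hR hF y
  rw [(grad_congr h).self_of_nhds, h.self_of_nhds]
  exact norm_grad_caph_le hR (hT c hc) y

lemma star_grad_capF (hT : ∀ c ∈ S, c ∈ Tᗮ) (y : E) :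
    T.starProjection (grad (capF T S R) y) = 0 := by
  obtain ⟨c, hc, -, h⟩ := exists_local (T := T) hS hR hF y
  rw [(grad_congr h).self_of_nhds]
  exact star_grad_caph hR (hT c hc) y

lemma hess_capF_le (hT : ∀ c ∈ S, c ∈ Tᗮ) (Q : Submodule ℝ E) (y : E) :
    hess (capF T S R) Q.starProjection y ≤ FV.tilt T Q.starProjection := by
  obtain ⟨c, hc, -, h⟩ := exists_local (T := T) hS hR hF y
  rw [hess_congr h]
  exact hess_caph_le hR (hT c hc) Q y

lemma hess_capF_ge (hT : ∀ c ∈ S, c ∈ Tᗮ) (Q : Submodule ℝ E) (y : E) :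
    -(2 * TH.winC) * FV.tilt T Q.starProjection ≤ hess (capF T S R) Q.starProjection y := by
  obtain ⟨c, hc, -, h⟩ := exists_local (T := T) hS hR hF y
  rw [hess_congr h]
  exact hess_caph_ge hR (hT c hc) Q y

/-- in the half windows the hessian trace is the tilt -/
lemma hess_capF_win (hT : ∀ c ∈ S, c ∈ Tᗮ) (B : E →L[ℝ] E) {c : E} (hc : c ∈ S) {y : E}
    (hy : ‖hgt T c y‖ ≤ R / 2) : hess (capF T S R) B y = FV.tilt T B := by
  obtain ⟨c₀, hc₀, hmin, h⟩ := exists_local (T := T) hS hR hF y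
  rw [hess_congr h]
  exact hess_caph_win hR (hT c₀ hc₀) B ((hmin c hc).trans hy)

/-- **comparison** with the half squares around another family covered by `S` -/
lemma capF_le_of_cov {S₀ : Finset E} {ρ : ℝ} (hcov : ∀ c ∈ S₀, ∃ c' ∈ S, dist c c' ^ 2 ≤ ρ)
    (y : E) : ∀ c ∈ S₀, capF T S R y ≤ 2 * hsq T c y + ρ := by
  intro c hc
  obtain ⟨c', hc', hd⟩ := hcov c hc
  refine (capF_le_hsq hS hR hF hc' y).trans ?_
  have h1 : ‖hgt T c' y‖ ≤ ‖hgt T c y‖ + dist c c' := by
    have h : hgt T c' y = hgt T c y + (c - c') := by unfold hgt; abel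
    rw [h, dist_eq_norm]; exact norm_add_le _ _
  unfold hsq
  have h2 : ‖hgt T c' y‖ ^ 2 ≤ 2 * ‖hgt T c y‖ ^ 2 + 2 * dist c c' ^ 2 := by
    calc ‖hgt T c' y‖ ^ 2 ≤ (‖hgt T c y‖ + dist c c') ^ 2 := by gcongr
      _ ≤ 2 * ‖hgt T c y‖ ^ 2 + 2 * dist c c' ^ 2 := by
        nlinarith [sq_nonneg (‖hgt T c y‖ - dist c c')]
  linarith

end

end Vale.Agent.P214.CAPF
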