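import Vale.Agent.P214.NGP.Cyl

/-!
# P214, block CAPF: the kernel `kk = -2 win'` is positive on `(1/4, 1)`
-/

open Set Filter Topology

set_option linter.all false

namespace Vale.Agent.P214.CAPF

open Vale.Agent.P214.NGP

/-- explicit form of the smooth transition on `(0,1)` -/
lemma smoothTransition_eq {x : ℝ} (h0 : 0 < x) (h1 : x < 1) :
    Real.smoothTransition x = 1 / (1 + Real.exp (x⁻¹ - (1 - x)⁻¹)) := by
  unfold Real.smoothTransition
  unfold expNegInvGlue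
  rw [if_neg (not_le.2 h0), if_neg (not_le.2 (by linarith : 0 < 1 - x))]
  have e1 : Real.exp (x⁻¹ - (1 - x)⁻¹) = Real.exp (-(1 - x)⁻¹) / Real.exp (-x⁻¹) := by
    rw [← Real.exp_sub]; congr 1; ring
  rw [e1]
  have := Real.exp_pos (-x⁻¹)
  have := Real.exp_pos (-(1 - x)⁻¹)
  field_simp

lemma deriv_smoothTransition_pos {x : ℝ} (h0 : 0 < x) (h1 : x < 1) :
    0 < deriv Real.smoothTransition x := by
  have hx1 : 0 < 1 - x := by linarith
  have d1 : HasDerivAt (fun x : ℝ => x⁻¹ - (1 - x)⁻¹) (-(x ^ 2)⁻¹ - ((1 - x) ^ 2)⁻¹) x := by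
    have h2 : HasDerivAt (fun x : ℝ => x⁻¹) (-(x ^ 2)⁻¹) x := hasDerivAt_inv h0.ne'
    have h3 : HasDerivAt (fun x : ℝ => 1 - x) (-1) x := by
      simpa using (hasDerivAt_id x).const_sub 1
    have h4 := h3.inv hx1.ne'
    refine (h2.sub h4).congr_deriv ?_
    field_simp
  have d2 := d1.exp.const_add 1
  have hpos : 0 < 1 + Real.exp (x⁻¹ - (1 - x)⁻¹) := by positivity
  have d3 := (d2.inv hpos.ne')
  have d4 : HasDerivAt Real.smoothTransition
      (-(Real.exp (x⁻¹ - (1 - x)⁻¹) * (-(x ^ 2)⁻¹ - ((1 - x) ^ 2)⁻¹))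
        / (1 + Real.exp (x⁻¹ - (1 - x)⁻¹)) ^ 2) x := by
    refine d3.congr_of_eventuallyEq ?_
    filter_upwards [Ioo_mem_nhds h0 h1] with y hy
    rw [smoothTransition_eq hy.1 hy.2]
    simp
  rw [d4.deriv]
  have h5 : 0 < (x ^ 2)⁻¹ + ((1 - x) ^ 2)⁻¹ := by positivity
  have h6 : -(Real.exp (x⁻¹ - (1 - x)⁻¹) * (-(x ^ 2)⁻¹ - ((1 - x) ^ 2)⁻¹))
      = Real.exp (x⁻¹ - (1 - x)⁻¹) * ((x ^ 2)⁻¹ + ((1 - x) ^ 2)⁻¹) := by ring
  rw [h6]
  positivity

lemma kk_pos {s : ℝ} (h0 : 1 / 4 < s) (h1 : s < 1) : 0 < kk s := by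
  have d1 : HasDerivAt (fun s : ℝ => (4 / 3) * (1 - s)) (-(4 / 3)) s := by
    have h3 : HasDerivAt (fun x : ℝ => 1 - x) (-1) s := by
      simpa using (hasDerivAt_id s).const_sub 1
    refine (h3.const_mul (4 / 3)).congr_deriv ?_
    norm_num
  have hd : HasDerivAt Real.smoothTransition
      (deriv Real.smoothTransition ((4 / 3) * (1 - s))) ((4 / 3) * (1 - s)) :=
    ((Real.smoothTransition.contDiff (n := 1)).differentiable (by norm_num) _).hasDerivAt
  have d2 : HasDerivAt TH.win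
      (deriv Real.smoothTransition ((4 / 3) * (1 - s)) * (-(4 / 3))) s :=
    HasDerivAt.comp (h₂ := Real.smoothTransition) s hd d1
  unfold kk
  rw [d2.deriv]
  have h2 : 0 < deriv Real.smoothTransition ((4 / 3) * (1 - s)) :=
    deriv_smoothTransition_pos (by linarith) (by linarith)
  linarith

/-- positive lower bound of `kk` on the middle annulus -/
lemma exists_kmin : ∃ c, 0 < c ∧ ∀ s ∈ Icc (9 / 25 : ℝ) (81 / 100), c ≤ kk s := by
  have hne : (Icc (9 / 25 : ℝ) (81 / 100)).Nonempty := ⟨9 / 25, by norm_num, by norm_num⟩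
  have hcont : Continuous kk := kernW.pk.continuous
  obtain ⟨x, hx, hmin⟩ := isCompact_Icc.exists_isMinOn hne hcont.continuousOn
  refine ⟨kk x, kk_pos (by linarith [hx.1]) (by linarith [hx.2]), fun s hs => hmin hs⟩

/-- the constant -/
noncomputable def kmin : ℝ := exists_kmin.choose

lemma kmin_pos : 0 < kmin := exists_kmin.choose_spec.1

lemma kmin_le {s : ℝ} (hs : s ∈ Icc (9 / 25 : ℝ) (81 / 100)) : kmin ≤ kk s :=
  exists_kmin.choose_spec.2 s hs

end Vale.Agent.P214.CAPF
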