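import Vale.Agent.P214.CAPF.Event
import Vale.Agent.P214.CAPF.Pos

/-!
# P214, block CAPF (6): the mass outside the windows

`int_le`: `∫_{B(9t/10)} F ≤ (3/kmin) (Hm/2) t^m + ∫_{B(s)} F + Fmax ∫_{B(t)} tilt` as soon as
`2 H^θ_F ≤ Hm` at all scales between `s` and `t`.
`mass_out`: the mass of the points over `B(9t/10)` which are at height distance `≥ R/4` from `S`.
-/

open Set Filter Topology MeasureTheory Metric
open scoped RealInnerProductSpace

set_option linter.all false

namespace Vale.Agent.P214.CAPF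

open Vale.Agent.P214.FV Vale.Agent.P214.ODE Vale.Agent.P214.NGP Vale.Agent.P214.QP

variable {E : Type*} [NormedAddCommGroup E] [InnerProductSpace ℝ E] [FiniteDimensional ℝ E]
  [MeasurableSpace E] [BorelSpace E]

variable {T : Submodule ℝ E} {m : ℕ} {G : Set E} {h : ℝ} {ν : Measure E} {P : E → E →L[ℝ] E}
  {z c : E} {k k' K : ℝ → ℝ}

lemma one_sub_theta_le (hC : CylStat m T G h ν P) (z : E) :
    ∀ᵐ y ∂ν, 1 - theta T P z y ≤ ODE.tilt T P y := by
  filter_upwards [CylStat.rad_le_tilt hC z, CylStat.tilt_nonneg hC] with y h1 h2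
  unfold theta
  have h3 : ODE.rad T P z y / bsq T z y ≤ ODE.tilt T P y := by
    rcases eq_or_lt_of_le (bsq_nonneg T z y) with h4 | h4
    · rw [← h4, div_zero]; exact h2
    · rw [div_le_iff₀ h4]; linarith
  linarith

section

variable {F : E → ℝ} {Fmax : ℝ}

lemma integrable_Fth (hC : CylStat m T G h ν P) (hF : Continuous F) (hF0 : ∀ y, 0 ≤ F y)
    (hFm : ∀ y, F y ≤ Fmax) : Integrable (fun y => F y * theta T P z y) ν := by
  haveI := hC.fin
  refine Integrable.mono' (integrable_const Fmax)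
    (hF.aestronglyMeasurable.mul (aesm_theta hC.meas)) ?_
  filter_upwards [(CylStat.plane hC).theta_mem (T := T) (z := z)] with y hy
  rw [Real.norm_eq_abs, abs_mul, abs_of_nonneg (hF0 y), abs_of_nonneg hy.1]
  calc F y * theta T P z y ≤ F y * 1 := mul_le_mul_of_nonneg_left hy.2 (hF0 y)
    _ ≤ Fmax := by rw [mul_one]; exact hFm y

lemma integrable_F (hC : CylStat m T G h ν P) (hF : Continuous F) (hF0 : ∀ y, 0 ≤ F y)
    (hFm : ∀ y, F y ≤ Fmax) : Integrable F ν := by
  haveI := hC.fin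
  refine Integrable.mono' (integrable_const Fmax) hF.aestronglyMeasurable
    (Eventually.of_forall fun y => ?_)
  rw [Real.norm_eq_abs, abs_of_nonneg (hF0 y)]
  exact hFm y

/-- one annulus -/
lemma ann_step (hC : CylStat m T G h ν P) (hk : Kern k k' K) {km : ℝ} (hkm : 0 < km)
    (hkl : ∀ s ∈ Icc (9 / 25 : ℝ) (81 / 100), km ≤ k s) (hF : Continuous F)
    (hF0 : ∀ y, 0 ≤ F y) (hFm : ∀ y, F y ≤ Fmax) {τ R Hm : ℝ} (hτ : 0 < τ) (hτR : τ < R)
    (hG : BallIn T G z R) (hH : 2 * hgtTh m T z k F P ν τ ≤ Hm) :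
    ∫ y in bset T z (9 / 10 * τ), F y * theta T P z y ∂ν
      ≤ (∫ y in bset T z (9 / 10 * (2 / 3 * τ)), F y * theta T P z y ∂ν)
        + Hm / (2 * km) * τ ^ m := by
  haveI := hC.fin
  have hb1 := measurableSet_bset T z (9 / 10 * τ)
  have hb2 := measurableSet_bset T z (9 / 10 * (2 / 3 * τ))
  have iF := integrable_Fth (z := z) hC hF hF0 hFm
  have i1 := CylStat.integrable_theta (z := z) hC hk hF hτ hτR hG
  have key : ∫ y in bset T z (9 / 10 * τ), F y * theta T P z y ∂ν
      ≤ ∫ y, ((bset T z (9 / 10 * (2 / 3 * τ))).indicator (fun y => F y * theta T P z y) y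
        + km⁻¹ * (k (bsq T z y / τ ^ 2) * (F y * theta T P z y))) ∂ν := by
    rw [← integral_indicator hb1]
    refine integral_mono_ae (iF.indicator hb1) ((iF.indicator hb2).add (i1.const_mul _)) ?_
    filter_upwards [(CylStat.plane hC).theta_mem (T := T) (z := z)] with y hth
    have h0 : 0 ≤ F y * theta T P z y := mul_nonneg (hF0 y) hth.1
    have h1 : 0 ≤ km⁻¹ * (k (bsq T z y / τ ^ 2) * (F y * theta T P z y)) :=
      mul_nonneg (by positivity) (mul_nonneg (hk.nonneg _) h0)
    by_cases h2 : y ∈ bset T z (9 / 10 * (2 / 3 * τ))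
    · have h3 : y ∈ bset T z (9 / 10 * τ) := bset_mono (by positivity) (by linarith) h2
      show (bset T z (9 / 10 * τ)).indicator (fun y => F y * theta T P z y) y ≤
        (bset T z (9 / 10 * (2 / 3 * τ))).indicator (fun y => F y * theta T P z y) y + _
      rw [indicator_of_mem h2, indicator_of_mem h3]
      linarith
    · show (bset T z (9 / 10 * τ)).indicator (fun y => F y * theta T P z y) y ≤
        (bset T z (9 / 10 * (2 / 3 * τ))).indicator (fun y => F y * theta T P z y) y + _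
      rw [indicator_of_notMem h2, zero_add]
      by_cases h3 : y ∈ bset T z (9 / 10 * τ)
      · rw [indicator_of_mem h3]
        have h4 : (9 / 10 * (2 / 3 * τ)) ^ 2 ≤ bsq T z y := not_lt.1 h2
        have h5 : bsq T z y < (9 / 10 * τ) ^ 2 := h3
        have h6 : km ≤ k (bsq T z y / τ ^ 2) := by
          refine hkl _ ⟨?_, ?_⟩
          · rw [le_div_iff₀ (by positivity)]
            nlinarith
          · rw [div_le_iff₀ (by positivity)]
            nlinarith
        calc F y * theta T P z y = km⁻¹ * (km * (F y * theta T P z y)) := by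
              field_simp
          _ ≤ km⁻¹ * (k (bsq T z y / τ ^ 2) * (F y * theta T P z y)) := by gcongr
      · rw [indicator_of_notMem h3]; exact h1
  rw [integral_add (iF.indicator hb2) (i1.const_mul _), integral_indicator hb2,
    integral_const_mul] at key
  have h7 : ∫ y, k (bsq T z y / τ ^ 2) * (F y * theta T P z y) ∂ν ≤ Hm / 2 * τ ^ m := by
    unfold hgtTh at hH
    have hz : 0 < τ ^ m := by positivity
    have e1 : τ ^ (-(m : ℤ)) = (τ ^ m)⁻¹ := by rw [zpow_neg, zpow_natCast]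
    rw [e1] at hH
    have h8 : (τ ^ m)⁻¹ * (∫ y, k (bsq T z y / τ ^ 2) * (F y * theta T P z y) ∂ν) ≤ Hm / 2 := by
      linarith
    rwa [inv_mul_le_iff₀ hz, mul_comm] at h8
  have h9 : km⁻¹ * (∫ y, k (bsq T z y / τ ^ 2) * (F y * theta T P z y) ∂ν)
      ≤ Hm / (2 * km) * τ ^ m := by
    calc km⁻¹ * (∫ y, k (bsq T z y / τ ^ 2) * (F y * theta T P z y) ∂ν)
        ≤ km⁻¹ * (Hm / 2 * τ ^ m) := by gcongr
      _ = _ := by field_simp
  linarith

/-- **(A)** the integral of the height function over a ball -/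
theorem int_le (hC : CylStat m T G h ν P) (hk : Kern k k' K) {km : ℝ} (hkm : 0 < km)
    (hkl : ∀ s ∈ Icc (9 / 25 : ℝ) (81 / 100), km ≤ k s) (hm : 1 ≤ m) (hF : Continuous F)
    (hF0 : ∀ y, 0 ≤ F y) (hFm : ∀ y, F y ≤ Fmax) {s t R Hm : ℝ} (hs : 0 < s) (hst : s ≤ t)
    (htR : t < R) (hG : BallIn T G z R)
    (hH : ∀ τ ∈ Icc s t, 2 * hgtTh m T z k F P ν τ ≤ Hm) :
    ∫ y in bset T z (9 / 10 * t), F y ∂ν
      ≤ 3 * (Hm / (2 * km)) * t ^ m + (∫ y in bset T z s, F y ∂ν) + Fmax * Dex T P ν z t := by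
  haveI := hC.fin
  have iFth := integrable_Fth (z := z) hC hF hF0 hFm
  have iF := integrable_F hC hF hF0 hFm
  have hth := (CylStat.plane hC).theta_mem (T := T) (z := z)
  have hHm : 0 ≤ Hm := by
    refine le_trans ?_ (hH s ⟨le_rfl, hst⟩)
    unfold hgtTh
    have h1 : 0 ≤ ∫ y, k (bsq T z y / s ^ 2) * (F y * theta T P z y) ∂ν := by
      refine integral_nonneg_of_ae ?_
      filter_upwards [hth] with y hy
      exact mul_nonneg (hk.nonneg _) (mul_nonneg (hF0 y) hy.1)
    have h2 := zpow_nonneg hs.le (-(m : ℤ))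
    positivity
  have hc1 : 0 ≤ Hm / (2 * km) := by positivity
  have hnn : ∀ ρ, 0 ≤ ∫ y in bset T z ρ, F y * theta T P z y ∂ν := fun ρ => by
    refine setIntegral_nonneg_of_ae ?_
    filter_upwards [hth] with y hy
    exact mul_nonneg (hF0 y) hy.1
  have hmono : ∀ ρ₁ ρ₂ : ℝ, 0 ≤ ρ₁ → ρ₁ ≤ ρ₂ → ∫ y in bset T z ρ₁, F y * theta T P z y ∂ν
      ≤ ∫ y in bset T z ρ₂, F y * theta T P z y ∂ν := by
    intro ρ₁ ρ₂ h1 h2
    refine setIntegral_mono_set iFth.integrableOn ?_ (bset_mono h1 h2).eventuallyLE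
    refine ae_restrict_of_ae ?_
    filter_upwards [hth] with y hy
    exact mul_nonneg (hF0 y) hy.1
  -- iteration
  have key : ∀ n : ℕ, ∀ τ : ℝ, 0 < τ → τ ≤ t → τ * (2 / 3) ^ n ≤ s →
      ∫ y in bset T z (9 / 10 * τ), F y * theta T P z y ∂ν
        ≤ (∫ y in bset T z s, F y * theta T P z y ∂ν) + 3 * (Hm / (2 * km)) * τ ^ m := by
    intro n
    induction n with
    | zero =>
      intro τ hτ hτt hle
      rw [pow_zero, mul_one] at hle
      have h1 := hmono (9 / 10 * τ) s (by positivity) (by linarith)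
      have : 0 ≤ 3 * (Hm / (2 * km)) * τ ^ m := by positivity
      linarith
    | succ n ih =>
      intro τ hτ hτt hle
      rcases le_total τ s with h1 | h1
      · have h1 := hmono (9 / 10 * τ) s (by positivity) (by linarith)
        have : 0 ≤ 3 * (Hm / (2 * km)) * τ ^ m := by positivity
        linarith
      · have h2 := ann_step (z := z) hC hk hkm hkl hF hF0 hFm hτ (hτt.trans_lt htR) hG
          (hH τ ⟨h1, hτt⟩)
        have h3 := ih (2 / 3 * τ) (by positivity) (by linarith) (by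
          rw [pow_succ] at hle; linarith)
        have h4 : (2 / 3 * τ) ^ m ≤ 2 / 3 * τ ^ m := by
          rw [mul_pow]
          have : ((2:ℝ) / 3) ^ m ≤ 2 / 3 := by
            calc ((2:ℝ) / 3) ^ m ≤ (2 / 3) ^ 1 :=
                  pow_le_pow_of_le_one (by norm_num) (by norm_num) hm
              _ = 2 / 3 := pow_one _
          gcongr
        have h5 : 3 * (Hm / (2 * km)) * (2 / 3 * τ) ^ m
            ≤ 3 * (Hm / (2 * km)) * (2 / 3 * τ ^ m) := by gcongr
        linarith
  have ht : 0 < t := hs.trans_le hst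
  obtain ⟨n, hn⟩ : ∃ n : ℕ, t * (2 / 3) ^ n ≤ s := by
    obtain ⟨n, hn⟩ := exists_pow_lt_of_lt_one (div_pos hs ht) (by norm_num : (2:ℝ) / 3 < 1)
    refine ⟨n, ?_⟩
    rw [lt_div_iff₀ ht] at hn
    linarith
  have h1 := key n t ht le_rfl hn
  -- `F ≤ F θ + Fmax tilt`
  have hb1 := measurableSet_bset T z (9 / 10 * t)
  have htl := TH.integrable_tilt hC
  have h2 : ∫ y in bset T z (9 / 10 * t), F y ∂ν
      ≤ (∫ y in bset T z (9 / 10 * t), F y * theta T P z y ∂ν)
        + Fmax * ∫ y in bset T z (9 / 10 * t), ODE.tilt T P y ∂ν := by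
    rw [← integral_const_mul, ← integral_add iFth.integrableOn (htl.integrableOn.const_mul _)]
    refine setIntegral_mono_on_ae iF.integrableOn
      (Integrable.add iFth.integrableOn (htl.integrableOn.const_mul _)) hb1 ?_
    filter_upwards [one_sub_theta_le hC z, CylStat.tilt_nonneg hC] with y h3 h4 _
    have h5 := hF0 y
    have h6 := hFm y
    have h7 : F y * (1 - theta T P z y) ≤ F y * ODE.tilt T P y := mul_le_mul_of_nonneg_left h3 h5
    have h8 : F y * ODE.tilt T P y ≤ Fmax * ODE.tilt T P y := mul_le_mul_of_nonneg_right h6 h4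
    linarith
  have hFm0 : 0 ≤ Fmax := (hF0 0).trans (hFm 0)
  have h3 : ∫ y in bset T z (9 / 10 * t), ODE.tilt T P y ∂ν ≤ Dex T P ν z t := by
    refine setIntegral_mono_set htl.integrableOn ?_ (bset_mono (by positivity) (by linarith)).eventuallyLE
    exact ae_restrict_of_ae (CylStat.tilt_nonneg hC)
  have h4 : ∫ y in bset T z s, F y * theta T P z y ∂ν ≤ ∫ y in bset T z s, F y ∂ν := by
    refine setIntegral_mono_on_ae iFth.integrableOn iF.integrableOn (measurableSet_bset T z s) ?_
    filter_upwards [hth] with y hy _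
    calc F y * theta T P z y ≤ F y * 1 := mul_le_mul_of_nonneg_left hy.2 (hF0 y)
      _ = F y := mul_one _
  have h5 : Fmax * (∫ y in bset T z (9 / 10 * t), ODE.tilt T P y ∂ν) ≤ Fmax * Dex T P ν z t := by
    gcongr
  linarith

end

/-- the points over `ball z ρ` at height distance `≥ R/4` from `S` -/
def outSet (T : Submodule ℝ E) (z : E) (S : Finset E) (R ρ : ℝ) : Set E :=
  {y | bsq T z y < ρ ^ 2 ∧ ∀ c ∈ S, R / 4 ≤ ‖hgt T c y‖}

lemma measurableSet_outSet (T : Submodule ℝ E) (z : E) (S : Finset E) (R ρ : ℝ) :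
    MeasurableSet (outSet T z S R ρ) := by
  have h1 : outSet T z S R ρ
      = {y | bsq T z y < ρ ^ 2} ∩ ⋂ c ∈ S, {y | R / 4 ≤ ‖hgt T c y‖} := by
    ext y; simp [outSet]
  rw [h1]
  refine (isOpen_lt (continuous_bsq T z) continuous_const).measurableSet.inter ?_
  refine Finset.measurableSet_biInter _ fun c _ => ?_
  exact (isClosed_le continuous_const (contDiff_hgt (n := 0) T c).continuous.norm).measurableSet

/-- **(B)** the mass outside the quarter windows from the integral of the capped function -/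
lemma mass_out_le (hC : CylStat m T G h ν P) {S : Finset E} {R ρ : ℝ} (hS : S.Nonempty)
    (hR : 0 < R) (hFar : Far S R) :
    ν.real (outSet T z S R ρ) ≤ 32 / R ^ 2 * ∫ y in bset T z ρ, capF T S R y ∂ν := by
  haveI := hC.fin
  have hmO := measurableSet_outSet T z S R ρ
  have iF := integrable_F (F := capF T S R) hC (contDiff_capF T S R).continuous
    (capF_nonneg hS hR hFar) (capF_le_sq hS hR hFar)
  have h1 : ∫ y in outSet T z S R ρ, R ^ 2 / 32 ∂ν ≤ ∫ y in outSet T z S R ρ, capF T S R y ∂ν := by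
    refine setIntegral_mono_on (integrable_const _).integrableOn iF.integrableOn hmO ?_
    intro y hy
    obtain ⟨c, hc, hle⟩ := le_capF (T := T) hS hR hFar y
    refine le_trans (le_min ?_ ?_) hle
    · have h2 := hy.2 c hc
      unfold hsq
      nlinarith
    · nlinarith [sq_nonneg R]
  have h2 : ∫ y in outSet T z S R ρ, capF T S R y ∂ν ≤ ∫ y in bset T z ρ, capF T S R y ∂ν := by
    refine setIntegral_mono_set iF.integrableOn
      (Eventually.of_forall fun y => capF_nonneg hS hR hFar y) ?_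
    exact HasSubset.Subset.eventuallyLE fun y hy => hy.1
  rw [setIntegral_const, smul_eq_mul] at h1
  have h3 : ν.real (outSet T z S R ρ) * (R ^ 2 / 32) ≤ ∫ y in bset T z ρ, capF T S R y ∂ν :=
    h1.trans h2
  rw [div_mul_eq_mul_div, le_div_iff₀ (by positivity)]
  linarith

end Vale.Agent.P214.CAPF
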